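import Mathlib

namespace Vale.Agent.P154

/-- Lower numerator polynomial. -/
noncomputable def polN (h k : ℝ) : ℝ := (270 - 108 * h * k) / 729

/-- Denominator polynomial. -/
noncomputable def polD (S h T k : ℝ) : ℝ :=
  (150 - 69 * h * k + 48 * h * T + 48 * S * k - 384 * S * T - 48 * h * T * k + 96 * S * T * k
    - 48 * S * h * k + 96 * S * h * T + 192 * S * h * T * k) / 729

/-- Right hand side. -/
noncomputable def polR (S h T k : ℝ) : ℝ := 1 - S - T + 2 * S * T - (h * T + S * k) / 2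

lemma lo_nonneg {S h : ℝ} (hS : 0 ≤ S) (hh : 0 ≤ h) (hd : (2 * S - h) ^ 2 ≤ S * h ^ 2) {t : ℝ}
    (ht : 0 ≤ t) : 0 ≤ 4 * t * S - h * (2 * t - t ^ 2 - S) := by
  have hr := Real.sq_sqrt hS
  have r0 := Real.sqrt_nonneg S
  have habs := abs_le_of_sq_le_sq (show (2 * S - h) ^ 2 ≤ (Real.sqrt S * h) ^ 2 by
    rw [mul_pow, hr]; exact hd) (mul_nonneg r0 hh)
  rw [abs_le] at habs
  nlinarith [habs.1, habs.2, mul_nonneg hh (sq_nonneg (Real.sqrt S - t))]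

lemma hi_nonneg {S h : ℝ} (hS : 0 ≤ S) (hh : 0 ≤ h) (hd : (2 * S - h) ^ 2 ≤ S * h ^ 2) {t : ℝ}
    (ht : 0 ≤ t) : 0 ≤ h * (2 * t + t ^ 2 + S) - 4 * t * S := by
  have hr := Real.sq_sqrt hS
  have r0 := Real.sqrt_nonneg S
  have habs := abs_le_of_sq_le_sq (show (2 * S - h) ^ 2 ≤ (Real.sqrt S * h) ^ 2 by
    rw [mul_pow, hr]; exact hd) (mul_nonneg r0 hh)
  rw [abs_le] at habs
  nlinarith [habs.1, habs.2, mul_nonneg hh (sq_nonneg (Real.sqrt S - t))]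

set_option maxHeartbeats 4000000 in
-- certificate checked by ring normalisation
theorem gap_nonneg {S h T k : ℝ} (hS : 0 ≤ S) (hSh : S ≤ h) (hh1 : h ≤ 1) (hT : 0 ≤ T)
    (hTk : T ≤ k) (hk1 : k ≤ 1) (ha : (2 * S - h) ^ 2 ≤ S * h ^ 2)
    (hb : (2 * T - k) ^ 2 ≤ T * k ^ 2) :
    polR S h T k * polD S h T k ≤ 3 / 2 * (1 - S) * (1 - T) * polN h k ^ 2 := by
  have hh : 0 ≤ h := le_trans hS hSh
  have hk : 0 ≤ k := le_trans hT hTk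
  unfold polR polD polN
  have la1 := lo_nonneg hS hh ha (t := (1 / 2 : ℝ)) (by norm_num)
  have la2 := lo_nonneg hS hh ha (t := (1 / 8 : ℝ)) (by norm_num)
  have la3 := lo_nonneg hS hh ha (t := (3 / 5 : ℝ)) (by norm_num)
  have ua1 := hi_nonneg hS hh ha (t := (1 / 1 : ℝ)) (by norm_num)
  have ua2 := hi_nonneg hS hh ha (t := (3 / 4 : ℝ)) (by norm_num)
  have ua3 := hi_nonneg hS hh ha (t := (1 / 5 : ℝ)) (by norm_num)
  have lb1 := lo_nonneg hT hk hb (t := (1 / 2 : ℝ)) (by norm_num)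
  have lb2 := lo_nonneg hT hk hb (t := (1 / 8 : ℝ)) (by norm_num)
  have lb3 := lo_nonneg hT hk hb (t := (3 / 5 : ℝ)) (by norm_num)
  have ub1 := hi_nonneg hT hk hb (t := (1 / 1 : ℝ)) (by norm_num)
  have ub2 := hi_nonneg hT hk hb (t := (3 / 4 : ℝ)) (by norm_num)
  have ub3 := hi_nonneg hT hk hb (t := (1 / 5 : ℝ)) (by norm_num)
  have a0 : 0 ≤ (1 - S) * (h * (2 * (1 / 1 : ℝ) + (1 / 1 : ℝ)^2 + S) - 4 * (1 / 1 : ℝ) * S) := (mul_nonneg (sub_nonneg.2 (le_trans hSh hh1)) ua1)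
  have a1 : 0 ≤ (1 - S) * (h * (2 * (3 / 4 : ℝ) + (3 / 4 : ℝ)^2 + S) - 4 * (3 / 4 : ℝ) * S) := (mul_nonneg (sub_nonneg.2 (le_trans hSh hh1)) ua2)
  have a2 : 0 ≤ (1 - S) * (4 * (1 / 2 : ℝ) * S - h * (2 * (1 / 2 : ℝ) - (1 / 2 : ℝ)^2 - S)) := (mul_nonneg (sub_nonneg.2 (le_trans hSh hh1)) la1)
  have a3 : 0 ≤ (1 - h) * (h * (2 * (1 / 1 : ℝ) + (1 / 1 : ℝ)^2 + S) - 4 * (1 / 1 : ℝ) * S) := (mul_nonneg (sub_nonneg.2 hh1) ua1)
  have a4 : 0 ≤ (1 - h) * (h * (2 * (3 / 4 : ℝ) + (3 / 4 : ℝ)^2 + S) - 4 * (3 / 4 : ℝ) * S) := (mul_nonneg (sub_nonneg.2 hh1) ua2)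
  have a5 : 0 ≤ (1 - h) * (4 * (1 / 2 : ℝ) * S - h * (2 * (1 / 2 : ℝ) - (1 / 2 : ℝ)^2 - S)) := (mul_nonneg (sub_nonneg.2 hh1) la1)
  have a6 : 0 ≤ (1 - h) * (4 * (3 / 5 : ℝ) * S - h * (2 * (3 / 5 : ℝ) - (3 / 5 : ℝ)^2 - S)) := (mul_nonneg (sub_nonneg.2 hh1) la3)
  have a7 : 0 ≤ (1 * h - 4 * S)^2 := (sq_nonneg _)
  have a8 : 0 ≤ (4 * h - 5 * S)^2 := (sq_nonneg _)
  have a9 : 0 ≤ (h - S) * (1 - h) * (1 - S) := (mul_nonneg (mul_nonneg (sub_nonneg.2 hSh) (sub_nonneg.2 hh1)) (sub_nonneg.2 (le_trans hSh hh1)))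
  have a10 : 0 ≤ (h - S) * (h * (2 * (1 / 1 : ℝ) + (1 / 1 : ℝ)^2 + S) - 4 * (1 / 1 : ℝ) * S) := (mul_nonneg (sub_nonneg.2 hSh) ua1)
  have a11 : 0 ≤ (h - S) * (h * (2 * (1 / 5 : ℝ) + (1 / 5 : ℝ)^2 + S) - 4 * (1 / 5 : ℝ) * S) := (mul_nonneg (sub_nonneg.2 hSh) ua3)
  have a12 : 0 ≤ (h - S) * (4 * (1 / 8 : ℝ) * S - h * (2 * (1 / 8 : ℝ) - (1 / 8 : ℝ)^2 - S)) := (mul_nonneg (sub_nonneg.2 hSh) la2)
  have a13 : 0 ≤ (S * h^2 - (2 * S - h)^2) := (sub_nonneg.2 ha)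
  have a14 : 0 ≤ S * (1 - h) * (1 - S) := (mul_nonneg (mul_nonneg hS (sub_nonneg.2 hh1)) (sub_nonneg.2 (le_trans hSh hh1)))
  have a15 : 0 ≤ S * (1 - h) * (1 - h) := (mul_nonneg (mul_nonneg hS (sub_nonneg.2 hh1)) (sub_nonneg.2 hh1))
  have a16 : 0 ≤ S * (h * (2 * (1 / 1 : ℝ) + (1 / 1 : ℝ)^2 + S) - 4 * (1 / 1 : ℝ) * S) := (mul_nonneg hS ua1)
  have a17 : 0 ≤ S * (4 * (1 / 2 : ℝ) * S - h * (2 * (1 / 2 : ℝ) - (1 / 2 : ℝ)^2 - S)) := (mul_nonneg hS la1)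
  have a18 : 0 ≤ h * (1 - 4 * S)^2 := (mul_nonneg hh (sq_nonneg _))
  have a19 : 0 ≤ h * (2 - 5 * S)^2 := (mul_nonneg hh (sq_nonneg _))
  have a20 : 0 ≤ h * (3 - 4 * S)^2 := (mul_nonneg hh (sq_nonneg _))
  have a21 : 0 ≤ h * (5 - 4 * S)^2 := (mul_nonneg hh (sq_nonneg _))
  have a22 : 0 ≤ h * (h - S) * (1 - S) := (mul_nonneg (mul_nonneg hh (sub_nonneg.2 hSh)) (sub_nonneg.2 (le_trans hSh hh1)))
  have b0 : 0 ≤ (1 - T) * (k * (2 * (1 / 1 : ℝ) + (1 / 1 : ℝ)^2 + T) - 4 * (1 / 1 : ℝ) * T) := (mul_nonneg (sub_nonneg.2 (le_trans hTk hk1)) ub1)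
  have b1 : 0 ≤ (1 - T) * (k * (2 * (3 / 4 : ℝ) + (3 / 4 : ℝ)^2 + T) - 4 * (3 / 4 : ℝ) * T) := (mul_nonneg (sub_nonneg.2 (le_trans hTk hk1)) ub2)
  have b2 : 0 ≤ (1 - T) * (4 * (1 / 2 : ℝ) * T - k * (2 * (1 / 2 : ℝ) - (1 / 2 : ℝ)^2 - T)) := (mul_nonneg (sub_nonneg.2 (le_trans hTk hk1)) lb1)
  have b3 : 0 ≤ (1 - k) * (k * (2 * (1 / 1 : ℝ) + (1 / 1 : ℝ)^2 + T) - 4 * (1 / 1 : ℝ) * T) := (mul_nonneg (sub_nonneg.2 hk1) ub1)
  have b4 : 0 ≤ (1 - k) * (k * (2 * (3 / 4 : ℝ) + (3 / 4 : ℝ)^2 + T) - 4 * (3 / 4 : ℝ) * T) := (mul_nonneg (sub_nonneg.2 hk1) ub2)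
  have b5 : 0 ≤ (1 - k) * (4 * (1 / 2 : ℝ) * T - k * (2 * (1 / 2 : ℝ) - (1 / 2 : ℝ)^2 - T)) := (mul_nonneg (sub_nonneg.2 hk1) lb1)
  have b6 : 0 ≤ (1 - k) * (4 * (3 / 5 : ℝ) * T - k * (2 * (3 / 5 : ℝ) - (3 / 5 : ℝ)^2 - T)) := (mul_nonneg (sub_nonneg.2 hk1) lb3)
  have b7 : 0 ≤ (1 * k - 4 * T)^2 := (sq_nonneg _)
  have b8 : 0 ≤ (4 * k - 5 * T)^2 := (sq_nonneg _)
  have b9 : 0 ≤ (k - T) * (1 - k) * (1 - T) := (mul_nonneg (mul_nonneg (sub_nonneg.2 hTk) (sub_nonneg.2 hk1)) (sub_nonneg.2 (le_trans hTk hk1)))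
  have b10 : 0 ≤ (k - T) * (k * (2 * (1 / 1 : ℝ) + (1 / 1 : ℝ)^2 + T) - 4 * (1 / 1 : ℝ) * T) := (mul_nonneg (sub_nonneg.2 hTk) ub1)
  have b11 : 0 ≤ (k - T) * (k * (2 * (1 / 5 : ℝ) + (1 / 5 : ℝ)^2 + T) - 4 * (1 / 5 : ℝ) * T) := (mul_nonneg (sub_nonneg.2 hTk) ub3)
  have b12 : 0 ≤ (k - T) * (4 * (1 / 8 : ℝ) * T - k * (2 * (1 / 8 : ℝ) - (1 / 8 : ℝ)^2 - T)) := (mul_nonneg (sub_nonneg.2 hTk) lb2)
  have b13 : 0 ≤ (T * k^2 - (2 * T - k)^2) := (sub_nonneg.2 hb)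
  have b14 : 0 ≤ T * (1 - k) * (1 - T) := (mul_nonneg (mul_nonneg hT (sub_nonneg.2 hk1)) (sub_nonneg.2 (le_trans hTk hk1)))
  have b15 : 0 ≤ T * (1 - k) * (1 - k) := (mul_nonneg (mul_nonneg hT (sub_nonneg.2 hk1)) (sub_nonneg.2 hk1))
  have b16 : 0 ≤ T * (k * (2 * (1 / 1 : ℝ) + (1 / 1 : ℝ)^2 + T) - 4 * (1 / 1 : ℝ) * T) := (mul_nonneg hT ub1)
  have b17 : 0 ≤ T * (4 * (1 / 2 : ℝ) * T - k * (2 * (1 / 2 : ℝ) - (1 / 2 : ℝ)^2 - T)) := (mul_nonneg hT lb1)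
  have b18 : 0 ≤ k * (1 - 4 * T)^2 := (mul_nonneg hk (sq_nonneg _))
  have b19 : 0 ≤ k * (2 - 5 * T)^2 := (mul_nonneg hk (sq_nonneg _))
  have b20 : 0 ≤ k * (3 - 4 * T)^2 := (mul_nonneg hk (sq_nonneg _))
  have b21 : 0 ≤ k * (5 - 4 * T)^2 := (mul_nonneg hk (sq_nonneg _))
  have b22 : 0 ≤ k * (k - T) * (1 - T) := (mul_nonneg (mul_nonneg hk (sub_nonneg.2 hTk)) (sub_nonneg.2 (le_trans hTk hk1)))
  linear_combination (54921479177145239/3978223539961180356 : ℝ) * mul_nonneg a13 b13 + (54921479177145239/3978223539961180356 : ℝ) * mul_nonneg a13 b13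
    + (737315666643083713/143216047438602492816 : ℝ) * mul_nonneg a13 b3 + (737315666643083713/143216047438602492816 : ℝ) * mul_nonneg a3 b13
    + (50228572005310703/15912894159844721424 : ℝ) * mul_nonneg a13 b22 + (50228572005310703/15912894159844721424 : ℝ) * mul_nonneg a22 b13
    + (15180084245243/15786601349052303 : ℝ) * mul_nonneg a13 b8 + (15180084245243/15786601349052303 : ℝ) * mul_nonneg a8 b13
    + (2345288805526267/1375188384184111728 : ℝ) * mul_nonneg a13 b20 + (2345288805526267/1375188384184111728 : ℝ) * mul_nonneg a20 b13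
    + (11486694541414927/111390259118913049968 : ℝ) * mul_nonneg a13 b19 + (11486694541414927/111390259118913049968 : ℝ) * mul_nonneg a19 b13
    + (413567727187396913/35804011859650623204 : ℝ) * mul_nonneg a16 b5 + (413567727187396913/35804011859650623204 : ℝ) * mul_nonneg a5 b16
    + (19918640312828/4597330747258683 : ℝ) * mul_nonneg a17 b10 + (19918640312828/4597330747258683 : ℝ) * mul_nonneg a10 b17
    + (1331199034328/510814527473187 : ℝ) * mul_nonneg a17 b1 + (1331199034328/510814527473187 : ℝ) * mul_nonneg a1 b17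
    + (275025813311825/9194661494517366 : ℝ) * mul_nonneg a17 b9 + (275025813311825/9194661494517366 : ℝ) * mul_nonneg a9 b17
    + (6989036991925/4086516219785496 : ℝ) * mul_nonneg a11 b7 + (6989036991925/4086516219785496 : ℝ) * mul_nonneg a7 b11
    + (14176205179375/4086516219785496 : ℝ) * mul_nonneg a11 b18 + (14176205179375/4086516219785496 : ℝ) * mul_nonneg a18 b11
    + (120020075344/93823076474667 : ℝ) * mul_nonneg a12 b18 + (120020075344/93823076474667 : ℝ) * mul_nonneg a18 b12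
    + (6975019107703/9194661494517366 : ℝ) * mul_nonneg a3 b5 + (6975019107703/9194661494517366 : ℝ) * mul_nonneg a5 b3
    + (53674060525/375292305898668 : ℝ) * mul_nonneg a3 b6 + (53674060525/375292305898668 : ℝ) * mul_nonneg a6 b3
    + (2538425685881/3064887164839122 : ℝ) * mul_nonneg a3 b15 + (2538425685881/3064887164839122 : ℝ) * mul_nonneg a15 b3
    + (62209519877779/6129774329678244 : ℝ) * mul_nonneg a5 b0 + (62209519877779/6129774329678244 : ℝ) * mul_nonneg a0 b5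
    + (97447209875957989/8951002964912655801 : ℝ) * mul_nonneg a5 b22 + (97447209875957989/8951002964912655801 : ℝ) * mul_nonneg a22 b5
    + (122182783388467/98076389274851904 : ℝ) * mul_nonneg a5 b20 + (122182783388467/98076389274851904 : ℝ) * mul_nonneg a20 b5
    + (17253297335957/98076389274851904 : ℝ) * mul_nonneg a5 b21 + (17253297335957/98076389274851904 : ℝ) * mul_nonneg a21 b5
    + (54093441781/1021629054946374 : ℝ) * mul_nonneg a4 b18 + (54093441781/1021629054946374 : ℝ) * mul_nonneg a18 b4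
    + (1160543025680671/9194661494517366 : ℝ) * mul_nonneg a2 b14 + (1160543025680671/9194661494517366 : ℝ) * mul_nonneg a14 b2
    + (5047959097574/4597330747258683 : ℝ) * mul_nonneg a9 b7 + (5047959097574/4597330747258683 : ℝ) * mul_nonneg a7 b9
    + (6214907625595/4086516219785496 : ℝ) * mul_nonneg a9 b18 + (6214907625595/4086516219785496 : ℝ) * mul_nonneg a18 b9
    + (173748382585/41699145099852 : ℝ) * mul_nonneg (mul_nonneg hS hT) (sq_nonneg (h - k))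

end Vale.Agent.P154
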