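import Mathlib
import Vale.Agent.P154.Cert

namespace Vale.Agent.P154

/-- Total mass. -/
def mass (x : Fin 3 → ℝ) : ℝ := x 0 + x 1 + x 2

/-- Second elementary symmetric polynomial. -/
def esy2 (x : Fin 3 → ℝ) : ℝ := x 0 * x 1 + x 0 * x 2 + x 1 * x 2

/-- Third elementary symmetric polynomial. -/
def esy3 (x : Fin 3 → ℝ) : ℝ := x 0 * x 1 * x 2

/-- Homogeneous functional e2 / mass. -/
noncomputable def q2 (x : Fin 3 → ℝ) : ℝ := esy2 x / mass x

/-- Homogeneous functional e3 / e2. -/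
noncomputable def q3 (x : Fin 3 → ℝ) : ℝ := esy3 x / esy2 x

/-- Six permutations. -/
def perm6 : Fin 6 → Equiv.Perm (Fin 3) :=
  ![1, Equiv.swap 0 1, Equiv.swap 0 2, Equiv.swap 1 2,
    Equiv.swap 0 1 * Equiv.swap 1 2, Equiv.swap 1 2 * Equiv.swap 0 1]

/-- Orbit sum. -/
def orb (f : (Fin 3 → ℝ) → ℝ) (x y : Fin 3 → ℝ) : ℝ :=
  ∑ k, f (fun i => x i * y (perm6 k i))

lemma orb_eq (f : (Fin 3 → ℝ) → ℝ) (x y : Fin 3 → ℝ) :
    orb f x y = f ![x 0 * y 0, x 1 * y 1, x 2 * y 2] + f ![x 0 * y 1, x 1 * y 0, x 2 * y 2]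
      + f ![x 0 * y 2, x 1 * y 1, x 2 * y 0] + f ![x 0 * y 0, x 1 * y 2, x 2 * y 1]
      + f ![x 0 * y 1, x 1 * y 2, x 2 * y 0] + f ![x 0 * y 2, x 1 * y 0, x 2 * y 1] := by
  rw [orb, Fin.sum_univ_six]
  congr 1
  congr 1
  congr 1
  congr 1
  congr 1
  all_goals (congr 1; funext i; fin_cases i <;> rfl)

lemma mass_nonneg {x : Fin 3 → ℝ} (hx : ∀ i, 0 ≤ x i) : 0 ≤ mass x := by
  have := hx 0; have := hx 1; have := hx 2; unfold mass; linarith

lemma esy2_nonneg {x : Fin 3 → ℝ} (hx : ∀ i, 0 ≤ x i) : 0 ≤ esy2 x := by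
  have := hx 0; have := hx 1; have := hx 2; unfold esy2; positivity

lemma esy3_nonneg {x : Fin 3 → ℝ} (hx : ∀ i, 0 ≤ x i) : 0 ≤ esy3 x := by
  have := hx 0; have := hx 1; have := hx 2; unfold esy3; positivity

lemma q2_nonneg {x : Fin 3 → ℝ} (hx : ∀ i, 0 ≤ x i) : 0 ≤ q2 x :=
  div_nonneg (esy2_nonneg hx) (mass_nonneg hx)

lemma q3_nonneg {x : Fin 3 → ℝ} (hx : ∀ i, 0 ≤ x i) : 0 ≤ q3 x :=
  div_nonneg (esy3_nonneg hx) (esy2_nonneg hx)

lemma q2_smul (c : ℝ) (x : Fin 3 → ℝ) : q2 (fun i => c * x i) = c * q2 x := by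
  rcases eq_or_ne c 0 with rfl | hc
  · simp [q2, esy2, mass]
  · simp only [q2, esy2, mass]
    rw [show c * x 0 * (c * x 1) + c * x 0 * (c * x 2) + c * x 1 * (c * x 2)
        = c * (c * (x 0 * x 1 + x 0 * x 2 + x 1 * x 2)) by ring,
      show c * x 0 + c * x 1 + c * x 2 = c * (x 0 + x 1 + x 2) by ring,
      mul_div_mul_left _ _ hc, mul_div_assoc]

lemma q3_smul (c : ℝ) (x : Fin 3 → ℝ) : q3 (fun i => c * x i) = c * q3 x := by
  rcases eq_or_ne c 0 with rfl | hc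
  · simp [q3, esy3, esy2]
  · simp only [q3, esy3, esy2]
    rw [show c * x 0 * (c * x 1) + c * x 0 * (c * x 2) + c * x 1 * (c * x 2)
        = c * c * (x 0 * x 1 + x 0 * x 2 + x 1 * x 2) by ring,
      show c * x 0 * (c * x 1) * (c * x 2) = c * c * (c * (x 0 * x 1 * x 2)) by ring,
      mul_div_mul_left _ _ (mul_ne_zero hc hc), mul_div_assoc]

lemma mass_smul (c : ℝ) (x : Fin 3 → ℝ) : mass (fun i => c * x i) = c * mass x := by
  simp only [mass]; ring

/-- Basic range facts of a normalised atom. -/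
lemma atom_range {a : Fin 3 → ℝ} (ha : ∀ i, 0 ≤ a i) (hs : mass a = 1) (he : 0 < esy2 a) :
    let S := 1 - 3 * esy2 a
    let h := 1 - 9 * q3 a
    0 ≤ S ∧ S ≤ h ∧ h ≤ 1 ∧ (2 * S - h) ^ 2 ≤ S * h ^ 2 := by
  intro S h
  simp only [S, h]
  have a0 := ha 0
  have a1 := ha 1
  have a2 := ha 2
  have hq : q3 a * esy2 a = esy3 a := div_mul_cancel₀ _ he.ne'
  have q0 := q3_nonneg ha
  have hsum : a 2 = 1 - a 0 - a 1 := by unfold mass at hs; linarith
  refine ⟨?_, ?_, by linarith, ?_⟩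
  · unfold esy2
    rw [hsum]
    nlinarith [sq_nonneg (a 0 - a 1), sq_nonneg (2 * a 0 + a 1 - 1), sq_nonneg (a 0 + 2 * a 1 - 1)]
  · have key : 3 * esy3 a ≤ esy2 a ^ 2 := by
      have h1 : esy2 a ^ 2 - 3 * esy3 a * mass a =
          ((a 0 * a 1 - a 0 * a 2) ^ 2 + (a 0 * a 1 - a 1 * a 2) ^ 2
            + (a 0 * a 2 - a 1 * a 2) ^ 2) / 2 := by
        simp only [esy2, esy3, mass]; ring
      rw [hs] at h1
      nlinarith [sq_nonneg (a 0 * a 1 - a 0 * a 2), sq_nonneg (a 0 * a 1 - a 1 * a 2),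
        sq_nonneg (a 0 * a 2 - a 1 * a 2)]
    nlinarith
  · have disc : 0 ≤ esy2 a ^ 2 - 4 * esy2 a ^ 3 - 4 * esy3 a + 18 * esy2 a * esy3 a
        - 27 * esy3 a ^ 2 := by
      have h1 : esy2 a ^ 2 * mass a ^ 2 - 4 * esy2 a ^ 3 - 4 * esy3 a * mass a ^ 3
          + 18 * esy2 a * esy3 a * mass a - 27 * esy3 a ^ 2 =
          ((a 0 - a 1) * (a 1 - a 2) * (a 2 - a 0)) ^ 2 := by
        simp only [esy2, esy3, mass]; ring
      rw [hs] at h1
      nlinarith [sq_nonneg ((a 0 - a 1) * (a 1 - a 2) * (a 2 - a 0))]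
    have key : ((1 - 3 * esy2 a) * (1 - 9 * q3 a) ^ 2
        - (2 * (1 - 3 * esy2 a) - (1 - 9 * q3 a)) ^ 2) * esy2 a
        = 9 * (esy2 a ^ 2 - 4 * esy2 a ^ 3 - 4 * esy3 a + 18 * esy2 a * esy3 a
          - 27 * esy3 a ^ 2) := by
      rw [← hq]; ring
    have h9 : 0 ≤ 9 * (esy2 a ^ 2 - 4 * esy2 a ^ 3 - 4 * esy3 a + 18 * esy2 a * esy3 a
          - 27 * esy3 a ^ 2) := by linarith
    rw [← key] at h9
    have := nonneg_of_mul_nonneg_left h9 he
    linarith

lemma affine_pos {lo hi x : ℝ} (f0 f1 : ℝ) (h1 : lo ≤ x) (h2 : x ≤ hi)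
    (e0 : 0 < f0 + f1 * lo) (e1 : 0 < f0 + f1 * hi) : 0 < f0 + f1 * x := by
  rcases le_total 0 f1 with h | h
  · nlinarith [mul_le_mul_of_nonneg_left h1 h]
  · nlinarith [mul_le_mul_of_nonpos_left h2 h]

lemma polD_pos {S h T k : ℝ} (hS : 0 ≤ S) (hSh : S ≤ h) (hh1 : h ≤ 1) (hT : 0 ≤ T)
    (hTk : T ≤ k) (hk1 : k ≤ 1) : 0 < polD S h T k := by
  have hS1 : S ≤ 1 := le_trans hSh hh1
  have hT1 : T ≤ 1 := le_trans hTk hk1
  have c11 : ∀ S T : ℝ, 0 < 729 * polD S 1 T 1 := fun S T => by unfold polD; ring_nf; norm_num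
  have c00 : 0 < 729 * polD S S T T := by
    unfold polD
    nlinarith [mul_nonneg hS hT, sq_nonneg (S * T - 357 / 576),
      mul_nonneg (mul_nonneg hS hT) (mul_nonneg hS (sub_nonneg.2 hT1)),
      mul_nonneg (mul_nonneg hS hT) (mul_nonneg hT (sub_nonneg.2 hS1))]
  have c01 : ∀ S T : ℝ, 0 ≤ S → S ≤ 1 → 0 ≤ T → T ≤ 1 → 0 < 729 * polD S S T 1 := by
    intro S T hS hS1 hT hT1
    unfold polD
    nlinarith [sq_nonneg (S - 309 / 480), mul_nonneg (mul_nonneg hS (sub_nonneg.2 hS1))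
      (sub_nonneg.2 hT1)]
  have c10 : 0 < 729 * polD S 1 T T := by
    have := c01 T S hT hT1 hS hS1
    unfold polD at this ⊢; linarith
  have line : ∀ y, 0 < 729 * polD S S T y → 0 < 729 * polD S 1 T y → 0 < 729 * polD S h T y := by
    intro y e0 e1
    unfold polD at e0 e1 ⊢
    have := affine_pos (150 + 48 * S * y - 384 * S * T + 96 * S * T * y)
      (-69 * y + 48 * T - 48 * T * y - 48 * S * y + 96 * S * T + 192 * S * T * y) hSh hh1
      (by linarith) (by linarith)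
    linarith
  have l0 := line T c00 c10
  have l1 := line 1 (c01 S T hS hS1 hT hT1) (c11 S T)
  unfold polD at l0 l1 ⊢
  have := affine_pos (150 + 48 * h * T - 384 * S * T + 96 * S * h * T)
    (-69 * h + 48 * S - 48 * h * T + 96 * S * T - 48 * S * h + 192 * S * h * T) hTk hk1
    (by linarith) (by linarith)
  linarith

/-- Tangent bound. -/
lemma tangent (g s e : ℝ) (hs : 0 ≤ s) (he : 0 ≤ e) (h0 : s = 0 → e = 0) :
    2 * g * ((3 - 4 * s) * e) - g ^ 2 * ((3 - 4 * s) ^ 2 * s * e) ≤ e / s := by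
  rcases hs.eq_or_lt with h | h
  · simp [h0 h.symm]
  · rw [le_div_iff₀ h]
    nlinarith [mul_nonneg he (sq_nonneg (1 - g * (3 - 4 * s) * s))]

lemma esy2_zero_of_mass {x : Fin 3 → ℝ} (hx : ∀ i, 0 ≤ x i) (h : mass x = 0) : esy2 x = 0 := by
  have := hx 0; have := hx 1; have := hx 2
  unfold mass at h
  have h0 : x 0 = 0 := by linarith
  have h1 : x 1 = 0 := by linarith
  simp [esy2, h0, h1]

lemma mulv_nonneg {x y : Fin 3 → ℝ} (hx : ∀ i, 0 ≤ x i) (hy : ∀ i, 0 ≤ y i)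
    (p : Equiv.Perm (Fin 3)) (i : Fin 3) : 0 ≤ x i * y (p i) := mul_nonneg (hx i) (hy _)

lemma orb_num {a b : Fin 3 → ℝ} (hs : mass a = 1) (ht : mass b = 1) :
    orb (fun z => (3 - 4 * mass z) * esy2 z) a b =
      (270 * (9 * esy2 a * esy2 b)
        - 108 * ((3 * esy2 a - 27 * esy3 a) * (3 * esy2 b - 27 * esy3 b))) / 729 := by
  have e1 : a 2 = 1 - a 0 - a 1 := by unfold mass at hs; linarith
  have e2 : b 2 = 1 - b 0 - b 1 := by unfold mass at ht; linarith
  rw [orb_eq]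
  simp only [mass, esy2, esy3, Matrix.cons_val_zero, Matrix.cons_val_one, Matrix.cons_val]
  rw [e1, e2]; ring

set_option maxHeartbeats 4000000 in
-- large ring normalisation
lemma orb_den {a b : Fin 3 → ℝ} (hs : mass a = 1) (ht : mass b = 1) :
    orb (fun z => (3 - 4 * mass z) ^ 2 * mass z * esy2 z) a b =
      (let A := 3 * esy2 a; let B := 3 * esy2 b
       let u := A - 27 * esy3 a; let v := B - 27 * esy3 b
       let S := 1 - A; let T := 1 - B
       150 * (A * B) - 69 * (u * v) + 48 * (u * B * T) + 48 * (A * S * v) - 384 * (A * S * B * T)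
        - 48 * (u * T * v) + 96 * (A * S * T * v) - 48 * (S * u * v) + 96 * (S * u * B * T)
        + 192 * (S * u * T * v)) / 729 := by
  have e1 : a 2 = 1 - a 0 - a 1 := by unfold mass at hs; linarith
  have e2 : b 2 = 1 - b 0 - b 1 := by unfold mass at ht; linarith
  rw [orb_eq]
  simp only [mass, esy2, esy3, Matrix.cons_val_zero, Matrix.cons_val_one, Matrix.cons_val]
  rw [e1, e2]; ring

lemma orb_mono {f g : (Fin 3 → ℝ) → ℝ} {x y : Fin 3 → ℝ} (hx : ∀ i, 0 ≤ x i) (hy : ∀ i, 0 ≤ y i)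
    (h : ∀ z : Fin 3 → ℝ, (∀ i, 0 ≤ z i) → f z ≤ g z) : orb f x y ≤ orb g x y :=
  Finset.sum_le_sum fun k _ => h _ (mulv_nonneg hx hy (perm6 k))

/-- The key pairwise inequality, normalised atoms. -/
theorem key_norm {a b : Fin 3 → ℝ} (ha : ∀ i, 0 ≤ a i) (hb : ∀ i, 0 ≤ b i)
    (hs : mass a = 1) (ht : mass b = 1) :
    polR (1 - 3 * esy2 a) (1 - 9 * q3 a) (1 - 3 * esy2 b) (1 - 9 * q3 b)
      ≤ 3 / 2 * orb q2 a b := by
  have h0 : 0 ≤ orb q2 a b := Finset.sum_nonneg fun k _ => q2_nonneg (mulv_nonneg ha hb (perm6 k))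
  rcases (esy2_nonneg ha).eq_or_lt with hA | hA
  · rcases (esy2_nonneg hb).eq_or_lt with hB | hB
    · simp [polR, q3, ← hA, ← hB]
      linarith
    · obtain ⟨_, r2, _, _⟩ := atom_range hb ht hB
      simp only [polR, ← hA, q3, div_zero] at *
      linarith
  rcases (esy2_nonneg hb).eq_or_lt with hB | hB
  · obtain ⟨_, r2, _, _⟩ := atom_range ha hs hA
    simp only [polR, ← hB, q3, div_zero] at *
    linarith
  obtain ⟨p1, p2, p3, p4⟩ := atom_range ha hs hA
  obtain ⟨r1, r2, r3, r4⟩ := atom_range hb ht hB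
  have hg := gap_nonneg p1 p2 p3 r1 r2 r3 p4 r4
  have hD := polD_pos p1 p2 p3 r1 r2 r3
  set S := 1 - 3 * esy2 a with hSdef
  set T := 1 - 3 * esy2 b with hTdef
  set h := 1 - 9 * q3 a with hhdef
  set k := 1 - 9 * q3 b with hkdef
  have q3a : q3 a * esy2 a = esy3 a := div_mul_cancel₀ _ hA.ne'
  have q3b : q3 b * esy2 b = esy3 b := div_mul_cancel₀ _ hB.ne'
  have hN : orb (fun z => (3 - 4 * mass z) * esy2 z) a b = (1 - S) * (1 - T) * polN h k := by
    rw [orb_num hs ht, ← q3a, ← q3b, polN, hSdef, hTdef, hhdef, hkdef]; ring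
  have hM : orb (fun z => (3 - 4 * mass z) ^ 2 * mass z * esy2 z) a b
      = (1 - S) * (1 - T) * polD S h T k := by
    rw [orb_den hs ht, ← q3a, ← q3b, polD, hSdef, hTdef, hhdef, hkdef]; ring
  set g := polN h k / polD S h T k with hgdef
  have hlow : orb (fun z => 2 * g * ((3 - 4 * mass z) * esy2 z)
      - g ^ 2 * ((3 - 4 * mass z) ^ 2 * mass z * esy2 z)) a b ≤ orb q2 a b :=
    orb_mono ha hb fun z hz =>
      tangent g (mass z) (esy2 z) (mass_nonneg hz) (esy2_nonneg hz) (esy2_zero_of_mass hz)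
  have hsplit : orb (fun z => 2 * g * ((3 - 4 * mass z) * esy2 z)
      - g ^ 2 * ((3 - 4 * mass z) ^ 2 * mass z * esy2 z)) a b
      = 2 * g * orb (fun z => (3 - 4 * mass z) * esy2 z) a b
        - g ^ 2 * orb (fun z => (3 - 4 * mass z) ^ 2 * mass z * esy2 z) a b := by
    simp only [orb, Finset.sum_sub_distrib, ← Finset.mul_sum]
  rw [hsplit, hN, hM] at hlow
  have hgD : g * polD S h T k = polN h k := div_mul_cancel₀ _ hD.ne'
  have hR : polR S h T k * polD S h T k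
      ≤ (3 / 2 * ((1 - S) * (1 - T) * g * polN h k)) * polD S h T k := by
    have : 3 / 2 * (1 - S) * (1 - T) * polN h k ^ 2
        = (3 / 2 * ((1 - S) * (1 - T) * g * polN h k)) * polD S h T k := by
      rw [← hgD]; ring
    linarith
  have hR' := le_of_mul_le_mul_right hR hD
  have : 2 * g * ((1 - S) * (1 - T) * polN h k) - g ^ 2 * ((1 - S) * (1 - T) * polD S h T k)
      = (1 - S) * (1 - T) * g * polN h k := by
    rw [← hgD]; ring
  linarith

lemma orb_scale (f : (Fin 3 → ℝ) → ℝ) (hf : ∀ c z, f (fun i => c * z i) = c * f z)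
    (s t : ℝ) (a b : Fin 3 → ℝ) :
    orb f (fun i => s * a i) (fun i => t * b i) = s * t * orb f a b := by
  simp only [orb, Finset.mul_sum]
  refine Finset.sum_congr rfl fun k _ => ?_
  rw [← hf]
  congr 1; funext i; ring

/-- Bilinear right-hand side. -/
noncomputable def rbil (x y : Fin 3 → ℝ) : ℝ :=
  mass x * mass y - (mass x - 3 * q2 x) * mass y - mass x * (mass y - 3 * q2 y)
    + 2 * (mass x - 3 * q2 x) * (mass y - 3 * q2 y)
    - ((mass x - 9 * q3 x) * (mass y - 3 * q2 y) + (mass x - 3 * q2 x) * (mass y - 9 * q3 y)) / 2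

lemma eq_zero_of_mass {x : Fin 3 → ℝ} (hx : ∀ i, 0 ≤ x i) (h : mass x = 0) (i : Fin 3) :
    x i = 0 := by
  have := hx 0; have := hx 1; have := hx 2
  unfold mass at h
  fin_cases i <;> simp <;> linarith

/-- The key pairwise inequality. -/
theorem key_atom {x y : Fin 3 → ℝ} (hx : ∀ i, 0 ≤ x i) (hy : ∀ i, 0 ≤ y i) :
    rbil x y ≤ 3 / 2 * orb q2 x y := by
  rcases (mass_nonneg hx).eq_or_lt with h | hs
  · have hx0 := eq_zero_of_mass hx h.symm
    simp [rbil, ← h, orb, q2, q3, hx0, esy2, esy3, mass]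
  rcases (mass_nonneg hy).eq_or_lt with h | ht
  · have hy0 := eq_zero_of_mass hy h.symm
    simp [rbil, ← h, orb, q2, q3, hy0, esy2, esy3, mass]
  set a := fun i => (mass x)⁻¹ * x i with hadef
  set b := fun i => (mass y)⁻¹ * y i with hbdef
  have hma : mass a = 1 := by rw [hadef, mass_smul, inv_mul_cancel₀ hs.ne']
  have hmb : mass b = 1 := by rw [hbdef, mass_smul, inv_mul_cancel₀ ht.ne']
  have key := key_norm (a := a) (b := b) (fun i => mul_nonneg (inv_nonneg.2 hs.le) (hx i))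
    (fun i => mul_nonneg (inv_nonneg.2 ht.le) (hy i)) hma hmb
  have ea : esy2 a = q2 a := by rw [q2, hma, div_one]
  have eb : esy2 b = q2 b := by rw [q2, hmb, div_one]
  rw [ea, eb, hadef, hbdef, q2_smul, q2_smul, q3_smul, q3_smul,
    orb_scale q2 q2_smul] at key
  have hm := mul_le_mul_of_nonneg_left key (mul_nonneg hs.le ht.le)
  have e1 : mass x * mass y * (3 / 2 * ((mass x)⁻¹ * (mass y)⁻¹ * orb q2 x y))
      = 3 / 2 * orb q2 x y := by field_simp
  rw [e1] at hm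
  refine le_trans (le_of_eq ?_) hm
  simp only [rbil, polR]
  field_simp

/-- Supermultiplicativity of e3 / e2. -/
theorem q3_atom {x y : Fin 3 → ℝ} (hx : ∀ i, 0 ≤ x i) (hy : ∀ i, 0 ≤ y i) :
    18 * q3 x * q3 y ≤ orb q3 x y := by
  have h0 : 0 ≤ orb q3 x y := Finset.sum_nonneg fun k _ => q3_nonneg (mulv_nonneg hx hy (perm6 k))
  rcases (esy3_nonneg hx).eq_or_lt with h | h3x
  · simp [q3, ← h] at h0 ⊢; exact h0
  rcases (esy3_nonneg hy).eq_or_lt with h | h3y
  · simp [q3, ← h] at h0 ⊢; exact h0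
  have pos : ∀ {z : Fin 3 → ℝ}, (∀ i, 0 ≤ z i) → 0 < esy3 z → ∀ i, 0 < z i := by
    intro z hz hp i
    refine (hz i).lt_of_ne fun he => ?_
    fin_cases i <;> simp [esy3] at hp he <;> simp [← he] at hp
  have px := pos hx h3x
  have py := pos hy h3y
  have e2x : 0 < esy2 x := by have := px 0; have := px 1; have := px 2; unfold esy2; positivity
  have e2y : 0 < esy2 y := by have := py 0; have := py 1; have := py 2; unfold esy2; positivity
  set g := 3 / (esy2 x * esy2 y) with hg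
  have hsum : orb esy2 x y = 2 * esy2 x * esy2 y := by
    rw [orb_eq]; simp only [esy2, Matrix.cons_val_zero, Matrix.cons_val_one, Matrix.cons_val]; ring
  have hterm : ∀ k, esy3 x * esy3 y * (2 * g - g ^ 2 * esy2 (fun i => x i * y (perm6 k i)))
      ≤ q3 (fun i => x i * y (perm6 k i)) := by
    intro k
    have he3 : esy3 (fun i => x i * y (perm6 k i)) = esy3 x * esy3 y := by
      fin_cases k <;> simp [esy3, perm6, Equiv.swap_apply_def] <;> ring
    have he2 : 0 < esy2 (fun i => x i * y (perm6 k i)) := by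
      have := mul_pos (px 0) (py (perm6 k 0)); have := mul_pos (px 1) (py (perm6 k 1))
      have := mul_pos (px 2) (py (perm6 k 2)); unfold esy2; positivity
    rw [q3, he3, le_div_iff₀ he2]
    nlinarith [mul_nonneg (mul_pos h3x h3y).le
      (sq_nonneg (1 - g * esy2 (fun i => x i * y (perm6 k i))))]
  have := Finset.sum_le_sum fun k (_ : k ∈ Finset.univ) => hterm k
  simp only [← Finset.mul_sum, Finset.sum_sub_distrib] at this
  refine le_trans (le_of_eq ?_) this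
  rw [show ∑ k, esy2 (fun i => x i * y (perm6 k i)) = orb esy2 x y from rfl, hsum]
  simp only [Finset.sum_const, Finset.card_univ, Fintype.card_fin, nsmul_eq_mul, q3, hg]
  field_simp
  push_cast
  ring

/-- Channel acting on likelihood vectors. -/
noncomputable def edge (l : ℝ) (x : Fin 3 → ℝ) : Fin 3 → ℝ :=
  fun i => l * x i + (1 - l) / 3 * mass x

lemma mass_edge (l : ℝ) (x : Fin 3 → ℝ) : mass (edge l x) = mass x := by
  simp only [mass, edge]; ring

lemma edge_nonneg {l : ℝ} (h0 : 0 ≤ l) (h1 : l ≤ 1) {x : Fin 3 → ℝ} (hx : ∀ i, 0 ≤ x i)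
    (i : Fin 3) : 0 ≤ edge l x i :=
  add_nonneg (mul_nonneg h0 (hx i)) (mul_nonneg (by linarith) (mass_nonneg hx))

lemma edge_smul (l c : ℝ) (x : Fin 3 → ℝ) :
    edge l (fun i => c * x i) = fun i => c * edge l x i := by
  funext i; simp only [edge, mass_smul]; ring

lemma q2_edge (l : ℝ) {x : Fin 3 → ℝ} (hx : ∀ i, 0 ≤ x i) :
    q2 (edge l x) = (1 - l ^ 2) * mass x / 3 + l ^ 2 * q2 x := by
  rcases (mass_nonneg hx).eq_or_lt with h | hs
  · have hx0 := eq_zero_of_mass hx h.symm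
    simp [q2, edge, ← h, hx0, esy2, mass]
  · unfold q2
    rw [mass_edge]
    field_simp
    simp only [esy2, edge, mass]
    ring

/-- Centre-shifted functional; its channel sum is H - 2 X. -/
noncomputable def psi (x : Fin 3 → ℝ) : ℝ := 2 * q2 x - 3 * q3 x - mass x / 3

lemma psi_norm {a : Fin 3 → ℝ} (hs : mass a = 1) (he : 0 < esy2 a) :
    psi a * (1 - (1 - 3 * esy2 a))
      = 2 / 3 * ((1 - 3 * esy2 a) ^ 2 - (27 * esy3 a - 1 + 3 * (1 - 3 * esy2 a)) / 2) := by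
  unfold psi
  rw [q2, q3, hs]
  field_simp
  ring

lemma psi_edge_alg {S c l : ℝ} (hS : 0 ≤ S) (hS1 : S < 1) (hc : c ^ 2 ≤ S ^ 3) (h0 : 0 ≤ l)
    (h1 : l ≤ 1) :
    (l ^ 4 * S ^ 2 - l ^ 3 * c) / (1 - l ^ 2 * S) ≤ l ^ 3 * ((S ^ 2 - c) / (1 - S)) := by
  have hd : 0 < 1 - l ^ 2 * S := by nlinarith [mul_le_mul_of_nonneg_right (pow_le_one₀ h0 h1 (n := 2)) hS]
  have hr := Real.sq_sqrt hS
  have r0 := Real.sqrt_nonneg S
  set r := Real.sqrt S
  have r1 : r ≤ 1 := by nlinarith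
  have hcr : c ≤ r ^ 3 := by
    have : c ^ 2 ≤ (r ^ 3) ^ 2 := by nlinarith [show S ^ 3 = (r ^ 2) ^ 3 by rw [hr]]
    exact (abs_le.1 (abs_le_of_sq_le_sq this (by positivity))).2
  have key : (1 + l) * c ≤ S + l * S ^ 2 := by
    have h2 := mul_nonneg (mul_nonneg (sq_nonneg r) (sub_nonneg.2 r1))
      (sub_nonneg.2 (mul_le_one₀ h1 r0 r1))
    have hS2 : S ^ 2 = r ^ 4 := by rw [← hr]; ring
    rw [hS2]
    nlinarith [mul_le_mul_of_nonneg_left hcr (by linarith : (0:ℝ) ≤ 1 + l)]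
  rw [← mul_div_assoc, div_le_div_iff₀ hd (by linarith)]
  nlinarith [mul_nonneg (mul_nonneg (mul_nonneg (pow_nonneg h0 3) hS) (sub_nonneg.2 h1))
    (sub_nonneg.2 key)]

/-- The edge contracts psi. -/
theorem psi_edge {l : ℝ} (h0 : 0 ≤ l) (h1 : l ≤ 1) {x : Fin 3 → ℝ} (hx : ∀ i, 0 ≤ x i) :
    psi (edge l x) ≤ l ^ 3 * psi x := by
  rcases eq_or_lt_of_le h1 with rfl | hl
  · have : edge 1 x = x := by funext i; simp [edge]
    simp [this]
  rcases (mass_nonneg hx).eq_or_lt with h | hs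
  · have hx0 := eq_zero_of_mass hx h.symm
    simp [psi, q2, q3, edge, hx0, esy2, esy3, mass]
  set a := fun i => (mass x)⁻¹ * x i with hadef
  have hxa : x = fun i => mass x * a i := by
    funext i; simp only [hadef]; field_simp
  have psmul : ∀ c z, psi (fun i => c * z i) = c * psi z := by
    intro c z; simp only [psi, q2_smul, q3_smul, mass_smul]; ring
  have hma : mass a = 1 := by rw [hadef, mass_smul, inv_mul_cancel₀ hs.ne']
  have han : ∀ i, 0 ≤ a i := fun i => mul_nonneg (inv_nonneg.2 hs.le) (hx i)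
  suffices psi (edge l a) ≤ l ^ 3 * psi a by
    rw [hxa, edge_smul, psmul, psmul]
    nlinarith [mul_le_mul_of_nonneg_left this hs.le]
  have hme : mass (edge l a) = 1 := by rw [mass_edge, hma]
  have he2 : esy2 (edge l a) = (1 - l ^ 2) / 3 + l ^ 2 * esy2 a := by
    have := q2_edge l han
    rwa [q2, hme, q2, hma, div_one, div_one, mul_one] at this
  have he3 : 27 * esy3 (edge l a) = 27 * l ^ 3 * esy3 a + 9 * l ^ 2 * (1 - l) * esy2 a
      + 3 * l * (1 - l) ^ 2 + (1 - l) ^ 3 := by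
    have e1 : a 2 = 1 - a 0 - a 1 := by unfold mass at hma; linarith
    simp only [esy3, esy2, edge, hma, e1]; ring
  have hl2 : l ^ 2 < 1 := by nlinarith
  have hE : 0 < esy2 (edge l a) := by rw [he2]; nlinarith [esy2_nonneg han]
  have n1 := psi_norm hme hE
  rw [he2, he3] at n1
  rcases (esy2_nonneg han).eq_or_lt with hz | hA
  · have h3 : esy3 a = 0 := by
      have hb : (esy3 a) ≤ 0 := by
        have a0 := han 0; have a1 := han 1; have a2 := han 2
        have p01 := mul_nonneg a0 a1; have p02 := mul_nonneg a0 a2; have p12 := mul_nonneg a1 a2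
        have : a 0 * a 1 = 0 := by unfold esy2 at hz; linarith
        simp [esy3, this]
      linarith [esy3_nonneg han]
    have hpa : psi a = -1 / 3 := by simp [psi, q2, q3, ← hz, hma]; norm_num
    rw [hpa]
    rw [← hz, h3] at n1
    have n2 : psi (edge l a) * ((1 - l) * (1 + l)) = -(2 / 3 * l ^ 3) * (1 - l) := by
      linear_combination n1
    have n3 : psi (edge l a) * (1 + l) = -(2 / 3 * l ^ 3) := by
      have := sub_ne_zero.2 hl.ne'
      apply mul_right_cancel₀ this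
      linear_combination n2
    nlinarith [pow_nonneg h0 3, mul_le_mul_of_nonneg_left h1 (pow_nonneg h0 3)]
  obtain ⟨p1, _, _, _⟩ := atom_range han hma hA
  have n0 := psi_norm hma hA
  set S := 1 - 3 * esy2 a with hSdef
  set c := (27 * esy3 a - 1 + 3 * S) / 2 with hcdef
  have hc : c ^ 2 ≤ S ^ 3 := by
    have h1 : esy2 a ^ 2 * mass a ^ 2 - 4 * esy2 a ^ 3 - 4 * esy3 a * mass a ^ 3
        + 18 * esy2 a * esy3 a * mass a - 27 * esy3 a ^ 2 =
        ((a 0 - a 1) * (a 1 - a 2) * (a 2 - a 0)) ^ 2 := by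
      simp only [esy2, esy3, mass]; ring
    rw [hma] at h1
    rw [hcdef, hSdef]
    nlinarith [sq_nonneg ((a 0 - a 1) * (a 1 - a 2) * (a 2 - a 0))]
  have hS1 : S < 1 := by rw [hSdef]; linarith
  have alg := psi_edge_alg p1 hS1 hc h0 h1
  have hd : 0 < 1 - l ^ 2 * S := by rw [hSdef]; nlinarith [esy2_nonneg han]
  have v1 : psi (edge l a) = 2 / 3 * ((l ^ 4 * S ^ 2 - l ^ 3 * c) / (1 - l ^ 2 * S)) := by
    rw [← mul_div_assoc, eq_div_iff hd.ne', hcdef, hSdef]
    linear_combination n1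
  have v0 : psi a = 2 / 3 * ((S ^ 2 - c) / (1 - S)) := by
    rw [← mul_div_assoc, eq_div_iff (by linarith : (1 - S : ℝ) ≠ 0), hcdef]
    linear_combination n0
  rw [v1, v0]
  linarith

end Vale.Agent.P154
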