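import Mathlib
import Vale.Agent.P154.Atom

namespace Vale.Agent.P154

open Finset

variable {A B : Type} [Fintype A] [Fintype B]

/-- Symmetric channel given by its likelihood vectors. -/
structure Good (L : A → Fin 3 → ℝ) : Prop where
  nonneg : ∀ o i, 0 ≤ L o i
  col : ∀ i, ∑ o, L o i = 1
  sym : ∀ (f : (Fin 3 → ℝ) → ℝ) (p : Equiv.Perm (Fin 3)),
    ∑ o, f (fun i => L o (p i)) = ∑ o, f (L o)

/-- Two conditionally independent observations. -/
def prodL (L : A → Fin 3 → ℝ) (M : B → Fin 3 → ℝ) : A × B → Fin 3 → ℝ :=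
  fun q i => L q.1 i * M q.2 i

/-- Second-moment functional. -/
noncomputable def chX (L : A → Fin 3 → ℝ) : ℝ := 1 - ∑ o, q2 (L o)

/-- Harmonic functional. -/
noncomputable def chH (L : A → Fin 3 → ℝ) : ℝ := 1 - 3 * ∑ o, q3 (L o)

/-- The invariant functional H - 2 X. -/
noncomputable def chY (L : A → Fin 3 → ℝ) : ℝ := chH L - 2 * chX L

lemma mass_eq_sum (x : Fin 3 → ℝ) : mass x = ∑ i, x i := by rw [Fin.sum_univ_three]; rfl

lemma mass_perm (x : Fin 3 → ℝ) (p : Equiv.Perm (Fin 3)) : mass (fun i => x (p i)) = mass x := by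
  rw [mass_eq_sum, mass_eq_sum, Equiv.sum_comp p x]

lemma Good.sum_mass {L : A → Fin 3 → ℝ} (hL : Good L) : ∑ o, mass (L o) = 3 := by
  simp only [mass_eq_sum]; rw [Finset.sum_comm]; simp [hL.col]

lemma chY_eq {L : A → Fin 3 → ℝ} (hL : Good L) : chY L = ∑ o, psi (L o) := by
  simp only [psi, Finset.sum_sub_distrib, ← Finset.mul_sum, ← Finset.sum_div, hL.sum_mass, chY,
    chH, chX]
  ring

lemma Good.child {L : A → Fin 3 → ℝ} (hL : Good L) {l : ℝ} (h0 : 0 ≤ l) (h1 : l ≤ 1) :
    Good (fun o => edge l (L o)) where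
  nonneg o i := edge_nonneg h0 h1 (hL.nonneg o) i
  col i := by
    simp only [edge, Finset.sum_add_distrib, ← Finset.mul_sum, hL.col, hL.sum_mass]; ring
  sym f p := by
    have : ∀ o, (fun i => edge l (L o) (p i)) = edge l (fun i => L o (p i)) := by
      intro o; funext i; simp only [edge, mass_perm]
    simp only [this]
    exact hL.sym (fun x => f (edge l x)) p

lemma chX_child {L : A → Fin 3 → ℝ} (hL : Good L) (l : ℝ) :
    chX (fun o => edge l (L o)) = l ^ 2 * chX L := by
  simp only [chX, fun o => q2_edge l (hL.nonneg o), Finset.sum_add_distrib, ← Finset.mul_sum,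
    ← Finset.sum_div, hL.sum_mass]
  ring

lemma chY_child {L : A → Fin 3 → ℝ} (hL : Good L) {l : ℝ} (h0 : 0 ≤ l) (h1 : l ≤ 1) :
    chY (fun o => edge l (L o)) ≤ l ^ 3 * chY L := by
  rw [chY_eq (hL.child h0 h1), chY_eq hL, Finset.mul_sum]
  exact Finset.sum_le_sum fun o _ => psi_edge h0 h1 (hL.nonneg o)

lemma Good.prod {L : A → Fin 3 → ℝ} {M : B → Fin 3 → ℝ} (hL : Good L) (hM : Good M) :
    Good (prodL L M) where
  nonneg q i := mul_nonneg (hL.nonneg q.1 i) (hM.nonneg q.2 i)
  col i := by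
    rw [Fintype.sum_prod_type]
    simp only [prodL, ← Finset.mul_sum, hM.col, mul_one, hL.col]
  sym f p := by
    rw [Fintype.sum_prod_type, Fintype.sum_prod_type]
    simp only [prodL]
    rw [hL.sym (fun x => ∑ b, f (fun i => x i * M b (p i))) p, Finset.sum_comm]
    conv_rhs => rw [Finset.sum_comm]
    rw [Finset.sum_comm, Finset.sum_comm (γ := B)]
    exact Finset.sum_congr rfl fun a _ => hM.sym (fun y => f (fun i => L a i * y i)) p

lemma orb_sum {L : A → Fin 3 → ℝ} {M : B → Fin 3 → ℝ} (hM : Good M)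
    (f : (Fin 3 → ℝ) → ℝ) : ∑ a, ∑ b, orb f (L a) (M b) = 6 * ∑ q, f (prodL L M q) := by
  rw [Fintype.sum_prod_type, Finset.mul_sum]
  refine Finset.sum_congr rfl fun a _ => ?_
  simp only [orb]
  rw [Finset.sum_comm]
  have : ∀ k, ∑ b, f (fun i => L a i * M b (perm6 k i)) = ∑ b, f (fun i => L a i * M b i) :=
    fun k => hM.sym (fun y => f (fun i => L a i * y i)) (perm6 k)
  simp [this]
  rfl

/-- Subadditivity of the second moment, up to the invariant. -/
theorem chX_prod_le {L : A → Fin 3 → ℝ} {M : B → Fin 3 → ℝ} (hL : Good L) (hM : Good M) :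
    chX (prodL L M) ≤ chX L + chX M + (chY L * chX M + chX L * chY M) / 2 := by
  have h1 : ∑ a, ∑ b, rbil (L a) (M b) ≤ ∑ a, ∑ b, 3 / 2 * orb q2 (L a) (M b) :=
    Finset.sum_le_sum fun a _ => Finset.sum_le_sum fun b _ =>
      key_atom (hL.nonneg a) (hM.nonneg b)
  have h2 : ∑ a, ∑ b, 3 / 2 * orb q2 (L a) (M b) = 9 * ∑ q, q2 (prodL L M q) := by
    simp only [← Finset.mul_sum, orb_sum hM]; ring
  have h3 : ∑ a, ∑ b, rbil (L a) (M b) = 9 * (1 - chX L - chX M + 2 * chX L * chX M
      - (chH L * chX M + chX L * chH M) / 2) := by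
    simp only [rbil, Finset.sum_add_distrib, Finset.sum_sub_distrib, ← Finset.mul_sum,
      ← Finset.sum_mul, ← Finset.sum_div, hL.sum_mass, hM.sum_mass, chX, chH]
    ring
  rw [h2, h3] at h1
  have h4 : chX (prodL L M) = 1 - ∑ q, q2 (prodL L M q) := rfl
  simp only [chY]
  nlinarith

/-- Supermultiplicativity of the harmonic functional. -/
theorem chH_prod_le {L : A → Fin 3 → ℝ} {M : B → Fin 3 → ℝ} (hL : Good L) (hM : Good M) :
    (1 - chH L) * (1 - chH M) ≤ 1 - chH (prodL L M) := by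
  have h1 : ∑ a, ∑ b, 18 * q3 (L a) * q3 (M b) ≤ ∑ a, ∑ b, orb q3 (L a) (M b) :=
    Finset.sum_le_sum fun a _ => Finset.sum_le_sum fun b _ =>
      q3_atom (hL.nonneg a) (hM.nonneg b)
  rw [orb_sum hM] at h1
  simp only [← Finset.mul_sum, ← Finset.sum_mul] at h1
  simp only [chH]
  nlinarith

lemma chX_le_one {L : A → Fin 3 → ℝ} (hL : Good L) : chX L ≤ 1 := by
  simp only [chX, sub_le_self_iff]
  exact Finset.sum_nonneg fun o _ => q2_nonneg (hL.nonneg o)

lemma chH_le_one {L : A → Fin 3 → ℝ} (hL : Good L) : chH L ≤ 1 := by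
  simp only [chH, sub_le_self_iff]
  exact mul_nonneg (by norm_num) (Finset.sum_nonneg fun o _ => q3_nonneg (hL.nonneg o))

lemma centred_sq {x : Fin 3 → ℝ} (hx : ∀ i, 0 ≤ x i) :
    ∑ j, (x j - mass x / 3) ^ 2 / mass x = 2 / 3 * mass x - 2 * q2 x := by
  rcases (mass_nonneg hx).eq_or_lt with h | hs
  · simp [q2, ← h]
  · rw [Fin.sum_univ_three, q2]
    field_simp
    simp only [mass, esy2]
    ring

lemma two_chX {L : A → Fin 3 → ℝ} (hL : Good L) :
    ∑ o, ∑ j, (L o j - mass (L o) / 3) ^ 2 / mass (L o) = 2 * chX L := by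
  simp only [fun o => centred_sq (hL.nonneg o), Finset.sum_sub_distrib, ← Finset.mul_sum,
    hL.sum_mass, chX]
  ring

lemma chX_nonneg {L : A → Fin 3 → ℝ} (hL : Good L) : 0 ≤ chX L := by
  have := two_chX hL
  have h2 : 0 ≤ ∑ o, ∑ j, (L o j - mass (L o) / 3) ^ 2 / mass (L o) :=
    Finset.sum_nonneg fun o _ => Finset.sum_nonneg fun j _ =>
      div_nonneg (sq_nonneg _) (mass_nonneg (hL.nonneg o))
  linarith

/-- Existence of an unbiased linear estimator with signal a and power b. -/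
def Est (L : A → Fin 3 → ℝ) (a b : ℝ) : Prop :=
  ∃ V : A → Fin 3 → ℝ, (∀ i j, ∑ o, L o i * V o j = a * ((if i = j then 1 else 0) - 1 / 3)) ∧
    (∑ o, ∑ j, mass (L o) * V o j ^ 2) ≤ 2 * b

lemma est_zero (L : A → Fin 3 → ℝ) : Est L 0 0 :=
  ⟨0, fun i j => by simp, by simp⟩

/-- Cauchy-Schwarz lower bound. -/
theorem est_le {L : A → Fin 3 → ℝ} (hL : Good L) {a b : ℝ} (h : Est L a b) :
    a ^ 2 ≤ chX L * b := by
  obtain ⟨V, hV, hB⟩ := h
  have hsum : ∑ q : A × Fin 3, (L q.1 q.2 - mass (L q.1) / 3) * V q.1 q.2 = 2 * a := by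
    rw [Fintype.sum_prod_type, Finset.sum_comm]
    have : ∀ j, ∑ o, (L o j - mass (L o) / 3) * V o j
        = a * (2 / 3) := by
      intro j
      have e : ∀ o, (L o j - mass (L o) / 3) * V o j
          = L o j * V o j - (L o 0 * V o j + L o 1 * V o j + L o 2 * V o j) / 3 := by
        intro o; simp only [mass]; ring
      simp only [e, Finset.sum_sub_distrib, ← Finset.sum_div, Finset.sum_add_distrib, hV]
      fin_cases j <;> simp <;> ring
    simp only [this, Finset.sum_const, Finset.card_univ, Fintype.card_fin, nsmul_eq_mul]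
    push_cast; ring
  have hcs := Finset.sum_sq_le_sum_mul_sum_of_sq_eq_mul (Finset.univ : Finset (A × Fin 3))
    (r := fun q => (L q.1 q.2 - mass (L q.1) / 3) * V q.1 q.2)
    (f := fun q => (L q.1 q.2 - mass (L q.1) / 3) ^ 2 / mass (L q.1))
    (g := fun q => mass (L q.1) * V q.1 q.2 ^ 2)
    (fun q _ => div_nonneg (sq_nonneg _) (mass_nonneg (hL.nonneg q.1)))
    (fun q _ => mul_nonneg (mass_nonneg (hL.nonneg q.1)) (sq_nonneg _))
    (fun q _ => by
      rcases (mass_nonneg (hL.nonneg q.1)).eq_or_lt with h | h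
      · simp [← h, eq_zero_of_mass (hL.nonneg q.1) h.symm]
      · field_simp)
  rw [hsum, Fintype.sum_prod_type, two_chX hL, Fintype.sum_prod_type] at hcs
  have := mul_le_mul_of_nonneg_left hB (by linarith [chX_nonneg hL] : (0:ℝ) ≤ 2 * chX L)
  nlinarith

/-- The posterior itself is an estimator with signal and power equal to X. -/
theorem est_self {L : A → Fin 3 → ℝ} (hL : Good L) : Est L (chX L) (chX L) := by
  refine ⟨fun o j => L o j / mass (L o) - 1 / 3, ?_, ?_⟩
  · set M : Fin 3 → Fin 3 → ℝ := fun i j => ∑ o, L o i * (L o j / mass (L o) - 1 / 3) with hM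
    have hp : ∀ (p : Equiv.Perm (Fin 3)) i j, M (p i) (p j) = M i j := by
      intro p i j
      have := hL.sym (fun x => x i * (x j / mass x - 1 / 3)) p
      simpa only [mass_perm] using this
    have hrow : ∀ i, M i 0 + M i 1 + M i 2 = 0 := by
      intro i
      simp only [hM, ← Finset.sum_add_distrib]
      refine Finset.sum_eq_zero fun o _ => ?_
      rcases (mass_nonneg (hL.nonneg o)).eq_or_lt with h | h
      · simp [eq_zero_of_mass (hL.nonneg o) h.symm]
      · field_simp; simp only [mass]; ring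
    have htr : M 0 0 + M 1 1 + M 2 2 = 2 * chX L := by
      rw [← two_chX hL]
      simp only [hM, ← Finset.sum_add_distrib, Fin.sum_univ_three]
      refine Finset.sum_congr rfl fun o _ => ?_
      rcases (mass_nonneg (hL.nonneg o)).eq_or_lt with h | h
      · simp [← h, eq_zero_of_mass (hL.nonneg o) h.symm]
      · field_simp; simp only [mass]; ring
    have d1 := hp (Equiv.swap 0 1) 0 0
    have d2 := hp (Equiv.swap 0 2) 0 0
    have o1 := hp (Equiv.swap 1 2) 0 1
    have o2 := hp (Equiv.swap 0 1) 0 2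
    have o3 := hp (Equiv.swap 0 1) 0 1
    have o4 := hp (Equiv.swap 0 2) 0 1
    have o5 := hp (Equiv.swap 0 2) 0 2
    simp [Equiv.swap_apply_def] at d1 d2 o1 o2 o3 o4 o5
    have r0 := hrow 0
    have r1 := hrow 1
    have r2 := hrow 2
    intro i j
    show M i j = _
    fin_cases i <;> fin_cases j <;> simp <;> linarith
  · refine le_of_eq ?_
    rw [← two_chX hL]
    refine Finset.sum_congr rfl fun o _ => Finset.sum_congr rfl fun j _ => ?_
    rcases (mass_nonneg (hL.nonneg o)).eq_or_lt with h | h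
    · simp [← h, eq_zero_of_mass (hL.nonneg o) h.symm]
    · field_simp

/-- Estimators add up over independent observations. -/
theorem est_prod {L : A → Fin 3 → ℝ} {M : B → Fin 3 → ℝ} (hL : Good L) (hM : Good M)
    {a b a' b' : ℝ} (h : Est L a b) (h' : Est M a' b') :
    Est (prodL L M) (a + a') (b + b' + 2 * a * a') := by
  obtain ⟨V, hV, hB⟩ := h
  obtain ⟨W, hW, hB'⟩ := h'
  refine ⟨fun q j => V q.1 j + W q.2 j, ?_, ?_⟩
  · intro i j
    rw [Fintype.sum_prod_type]
    have e : ∀ o o', prodL L M (o, o') i * (V o j + W o' j)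
        = (L o i * V o j) * M o' i + L o i * (M o' i * W o' j) := by
      intro o o'; simp only [prodL]; ring
    simp only [e, Finset.sum_add_distrib, ← Finset.mul_sum, ← Finset.sum_mul, hM.col, hW, hV,
      hL.col]
    ring
  · have e : ∀ o o' j, mass (prodL L M (o, o')) * (V o j + W o' j) ^ 2
        = ∑ i, ((L o i * V o j ^ 2) * M o' i + 2 * (L o i * V o j) * (M o' i * W o' j)
          + L o i * (M o' i * W o' j ^ 2)) := by
      intro o o' j
      rw [mass_eq_sum, Finset.sum_mul]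
      exact Finset.sum_congr rfl fun i _ => by simp only [prodL]; ring
    rw [Fintype.sum_prod_type]
    simp only [e]
    rw [show ∑ o, ∑ o', ∑ j, ∑ i, ((L o i * V o j ^ 2) * M o' i
          + 2 * (L o i * V o j) * (M o' i * W o' j) + L o i * (M o' i * W o' j ^ 2))
        = ∑ j, ∑ i, ∑ o, ∑ o', ((L o i * V o j ^ 2) * M o' i
          + 2 * (L o i * V o j) * (M o' i * W o' j) + L o i * (M o' i * W o' j ^ 2)) by
      simp only [Finset.sum_comm (s := (univ : Finset B))]
      simp only [Finset.sum_comm (s := (univ : Finset A))]]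
    simp only [Finset.sum_add_distrib, ← Finset.mul_sum, ← Finset.sum_mul, hM.col, hL.col, mul_one,
      one_mul, hV, hW]
    have hA : ∑ o, ∑ j, mass (L o) * V o j ^ 2 = ∑ j, ∑ i, ∑ o, L o i * V o j ^ 2 := by
      rw [Finset.sum_comm]
      refine Finset.sum_congr rfl fun j _ => ?_
      rw [Finset.sum_comm]
      exact Finset.sum_congr rfl fun o _ => by rw [mass_eq_sum, Finset.sum_mul]
    have hB2 : ∑ o, ∑ j, mass (M o) * W o j ^ 2 = ∑ j, ∑ i, ∑ o, M o i * W o j ^ 2 := by
      rw [Finset.sum_comm]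
      refine Finset.sum_congr rfl fun j _ => ?_
      rw [Finset.sum_comm]
      exact Finset.sum_congr rfl fun o _ => by rw [mass_eq_sum, Finset.sum_mul]
    rw [hA] at hB
    rw [hB2] at hB'
    have hc : ∑ j : Fin 3, ∑ i : Fin 3, 2 * (a * ((if i = j then 1 else 0) - 1 / 3))
        * (a' * ((if i = j then 1 else 0) - 1 / 3)) = 4 * a * a' := by
      simp [Fin.sum_univ_three]; ring
    linarith

/-- Data processing. -/
lemma chX_prod_ge_left {L : A → Fin 3 → ℝ} {M : B → Fin 3 → ℝ} (hL : Good L) (hM : Good M) :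
    chX L ≤ chX (prodL L M) := by
  have := est_le (hL.prod hM) (est_prod hL hM (est_self hL) (est_zero M))
  simp only [add_zero, mul_zero] at this
  rcases (chX_nonneg hL).eq_or_lt with h | h
  · linarith [chX_nonneg (hL.prod hM)]
  · nlinarith

lemma chX_prod_ge_right {L : A → Fin 3 → ℝ} {M : B → Fin 3 → ℝ} (hL : Good L) (hM : Good M) :
    chX M ≤ chX (prodL L M) := by
  have := est_le (hL.prod hM) (est_prod hL hM (est_zero L) (est_self hM))
  simp only [zero_add, mul_zero, zero_mul, add_zero] at this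
  rcases (chX_nonneg hM).eq_or_lt with h | h
  · linarith [chX_nonneg (hL.prod hM)]
  · nlinarith

lemma closure_alg {a b Ha Hb X H : ℝ} (a0 : 0 ≤ a) (b0 : 0 ≤ b) (a1 : a ≤ 1) (b1 : b ≤ 1)
    (hHa : Ha ≤ 2 * a) (hHb : Hb ≤ 2 * b)
    (hH1 : H ≤ 1) (hH : (1 - Ha) * (1 - Hb) ≤ 1 - H) (hXa : a ≤ X) (hXb : b ≤ X)
    (hX : (a + b) ^ 2 ≤ X * (a + b + 2 * a * b)) :
    H - 2 * X ≤ -(a ^ 2 * b ^ 2) / 8 := by
  rcases eq_or_lt_of_le (by positivity : 0 ≤ a + b) with h0 | h0
  · have ha : a = 0 := by linarith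
    have hb : b = 0 := by linarith
    subst ha hb
    nlinarith
  have hd : 0 < a + b + 2 * a * b := by nlinarith [mul_nonneg a0 b0]
  have hd4 : a + b + 2 * a * b ≤ 4 := by nlinarith [mul_le_one₀ a1 b0 b1]
  have key : ∀ {u v : ℝ}, 0 ≤ v → v * (a + b + 2 * a * b) + u ≤ (a + b) ^ 2 → 0 ≤ u →
      v + u / 4 ≤ X := by
    intro u v _ huv hu
    have : (v + u / 4) * (a + b + 2 * a * b) ≤ X * (a + b + 2 * a * b) := by
      nlinarith [mul_le_mul_of_nonneg_left hd4 hu]
    exact le_of_mul_le_mul_right this hd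
  by_cases ha : a ≤ 1 / 2
  · by_cases hb : b ≤ 1 / 2
    · have hv : 0 ≤ a + b - 2 * a * b := by nlinarith [mul_nonneg a0 b0]
      have := key hv (u := 4 * a ^ 2 * b ^ 2) (by nlinarith) (by positivity)
      have h2 : (1 - 2 * a) * (1 - 2 * b) ≤ (1 - Ha) * (1 - Hb) :=
        mul_le_mul (by linarith) (by linarith) (by linarith) (by linarith)
      nlinarith [sq_nonneg (a * b)]
    · push Not at hb
      have := key (v := 1 / 2) (by norm_num) (u := a ^ 2) (by nlinarith [mul_nonneg a0 b0])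
        (sq_nonneg a)
      nlinarith [mul_le_mul_of_nonneg_left (pow_le_one₀ b0 b1 (n := 2)) (sq_nonneg a)]
  · push Not at ha
    have := key (v := 1 / 2) (by norm_num) (u := b ^ 2) (by nlinarith [mul_nonneg a0 b0])
      (sq_nonneg b)
    nlinarith [mul_le_mul_of_nonneg_right (pow_le_one₀ a0 a1 (n := 2)) (sq_nonneg b)]

/-- The class H ≤ 2 X is closed under combining, strictly. -/
theorem chY_prod_le {L : A → Fin 3 → ℝ} {M : B → Fin 3 → ℝ} (hL : Good L) (hM : Good M)
    (yL : chY L ≤ 0) (yM : chY M ≤ 0) :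
    chY (prodL L M) ≤ -(chX L ^ 2 * chX M ^ 2) / 8 := by
  refine closure_alg (Ha := chH L) (Hb := chH M) (chX_nonneg hL) (chX_nonneg hM) (chX_le_one hL)
    (chX_le_one hM) (by simp only [chY] at yL; linarith) (by simp only [chY] at yM; linarith)
    (chH_le_one (hL.prod hM)) (chH_prod_le hL hM) (chX_prod_ge_left hL hM)
    (chX_prod_ge_right hL hM) ?_
  have := est_le (hL.prod hM) (est_prod hL hM (est_self hL) (est_self hM))
  linarith

end Vale.Agent.P154
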