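import Mathlib

namespace Vale.Agent.P154

/-- A finite rooted tree in first-child / next-sibling form: `nil` is a root without children and
`cons c r` is the tree obtained from `r` by giving its root one more child, the root of `c`. -/
inductive Tree : Type
  | nil : Tree
  | cons (c r : Tree) : Tree

/-- Spin configurations of the vertices at a given depth of a tree. -/
def Obs : Tree → ℕ → Type
  | _, 0 => Fin 3
  | .nil, _ + 1 => PUnit
  | .cons c r, n + 1 => Obs c n × Obs r (n + 1)

/-- Finiteness of the configuration space. -/
def obsFintype : (t : Tree) → (n : ℕ) → Fintype (Obs t n)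
  | .nil, 0 => inferInstanceAs (Fintype (Fin 3))
  | .cons _ _, 0 => inferInstanceAs (Fintype (Fin 3))
  | .nil, _ + 1 => inferInstanceAs (Fintype PUnit)
  | .cons c r, n + 1 => @instFintypeProd _ _ (obsFintype c n) (obsFintype r (n + 1))

noncomputable instance instFintypeObs (t : Tree) (n : ℕ) : Fintype (Obs t n) := obsFintype t n

/-- The three-state Potts channel. -/
noncomputable def potts (l : ℝ) (i j : Fin 3) : ℝ := l * (if i = j then 1 else 0) + (1 - l) / 3

/-- The probability of a configuration at the given depth, given the root spin. -/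
noncomputable def lik (l : ℝ) : (t : Tree) → (n : ℕ) → Obs t n → Fin 3 → ℝ
  | .nil, 0, o => fun i => if (show Fin 3 from o).val = i.val then 1 else 0
  | .cons _ _, 0, o => fun i => if (show Fin 3 from o).val = i.val then 1 else 0
  | .nil, _ + 1, _ => fun _ => 1
  | .cons c r, n + 1, o => fun i => (∑ j, potts l i j * lik l c n o.1 j) * lik l r (n + 1) o.2 i

/-- Expected total-variation distance of the root posterior from the uniform law, for a given
tree observed at depth `n`. -/
noncomputable def aTree (l : ℝ) (t : Tree) (n : ℕ) : ℝ :=
  ∑ o : Obs t n, ((∑ k, lik l t n o k) / 3) *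
    ((1 / 2) * ∑ i, |lik l t n o i / (∑ k, lik l t n o k) - 1 / 3|)

/-- The complete d-ary tree of depth n. -/
def fullTree (d : ℕ) : ℕ → Tree
  | 0 => .nil
  | n + 1 => (Tree.cons (fullTree d n))^[d] .nil

/-- The quantity a_n on the d-ary tree. -/
noncomputable def aReg (l : ℝ) (d n : ℕ) : ℝ := aTree l (fullTree d n) n

/-- Number of children of the root. -/
def numKids : Tree → ℕ
  | .nil => 0
  | .cons _ r => numKids r + 1

/-- Product of a weight over the children of the root. -/
noncomputable def kidsProd (w : Tree → ℝ) : Tree → ℝ
  | .nil => 1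
  | .cons c r => w c * kidsProd w r

/-- The law of a Poisson(d) Galton-Watson tree cut at depth n. -/
noncomputable def gwProb (d : ℝ) : ℕ → Tree → ℝ
  | 0, .nil => 1
  | 0, .cons _ _ => 0
  | n + 1, t => Real.exp (-d) * d ^ numKids t / (numKids t).factorial * kidsProd (gwProb d n) t

/-- The quantity a_n on the Poisson(d) Galton-Watson tree. -/
noncomputable def aGW (l d : ℝ) (n : ℕ) : ℝ := ∑' t : Tree, gwProb d n t * aTree l t n

end Vale.Agent.P154

namespace Vale.Agent.P154

/-- Number of vertices at depth n. -/
def levelSize : Tree → ℕ → ℕ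
  | _, 0 => 1
  | .nil, _ + 1 => 0
  | .cons c r, n + 1 => levelSize c n + levelSize r (n + 1)

end Vale.Agent.P154
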