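import Mathlib
import Vale.Agent.P154.Channel
import Vale.Agent.P154.Model

namespace Vale.Agent.P154

variable {l : ℝ}

lemma edge_eq_sum (l : ℝ) (x : Fin 3 → ℝ) (i : Fin 3) : ∑ j, potts l i j * x j = edge l x i := by
  fin_cases i <;> simp [Fin.sum_univ_three, potts, edge, mass] <;> ring

lemma good_vertex : Good (A := Fin 3) (fun o i => if o.val = i.val then (1 : ℝ) else 0) where
  nonneg o i := by split_ifs <;> norm_num
  col i := by simp [← Fin.ext_iff]
  sym f p := by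
    refine Fintype.sum_equiv p.symm _ _ fun o => ?_
    congr 1; funext i
    simp only [← Fin.ext_iff, Equiv.symm_apply_eq]

lemma good_unit : Good (A := PUnit) (fun _ _ => (1 : ℝ)) where
  nonneg _ _ := zero_le_one
  col _ := by simp
  sym f p := rfl

lemma lik_cons (l : ℝ) (c r : Tree) (n : ℕ) :
    lik l (.cons c r) (n + 1) = prodL (fun o => edge l (lik l c n o)) (lik l r (n + 1)) := by
  funext o i
  exact congrArg (· * lik l r (n + 1) o.2 i) (edge_eq_sum l (lik l c n o.1) i)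

lemma good_lik (h0 : 0 ≤ l) (h1 : l ≤ 1) : ∀ (t : Tree) (n : ℕ), Good (lik l t n)
  | .nil, 0 => good_vertex
  | .cons _ _, 0 => good_vertex
  | .nil, _ + 1 => good_unit
  | .cons c r, n + 1 => by
    rw [lik_cons]
    exact ((good_lik h0 h1 c n).child h0 h1).prod (good_lik h0 h1 r (n + 1))

/-- Second moment at the root. -/
noncomputable def tX (l : ℝ) (t : Tree) (n : ℕ) : ℝ := chX (lik l t n)

/-- Invariant at the root. -/
noncomputable def tY (l : ℝ) (t : Tree) (n : ℕ) : ℝ := chY (lik l t n)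

lemma vertex_vals :
    chX (A := Fin 3) (fun o i => if o.val = i.val then (1 : ℝ) else 0) = 1 ∧
      chY (A := Fin 3) (fun o i => if o.val = i.val then (1 : ℝ) else 0) = -1 := by
  constructor <;> simp [chY, chH, chX, q2, q3, esy2, esy3, mass, Fin.sum_univ_three]
  norm_num

lemma tX_zero (l : ℝ) (t : Tree) : tX l t 0 = 1 := by cases t <;> exact vertex_vals.1

lemma tY_zero (l : ℝ) (t : Tree) : tY l t 0 = -1 := by cases t <;> exact vertex_vals.2

lemma unit_vals :
    chX (A := PUnit) (fun _ _ => (1 : ℝ)) = 0 ∧ chY (A := PUnit) (fun _ _ => (1 : ℝ)) = 0 := by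
  constructor <;> simp [chY, chH, chX, q2, q3, esy2, esy3, mass] <;> norm_num

lemma tX_nil (l : ℝ) (n : ℕ) : tX l .nil (n + 1) = 0 := unit_vals.1

lemma tY_nil (l : ℝ) (n : ℕ) : tY l .nil (n + 1) = 0 := unit_vals.2

lemma tX_mem (h0 : 0 ≤ l) (h1 : l ≤ 1) (t : Tree) (n : ℕ) : 0 ≤ tX l t n ∧ tX l t n ≤ 1 :=
  ⟨chX_nonneg (good_lik h0 h1 t n), chX_le_one (good_lik h0 h1 t n)⟩

lemma child_vals (h0 : 0 ≤ l) (h1 : l ≤ 1) (c : Tree) (n : ℕ) :
    chX (fun o => edge l (lik l c n o)) = l ^ 2 * tX l c n ∧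
      chY (fun o => edge l (lik l c n o)) ≤ l ^ 3 * tY l c n :=
  ⟨chX_child (good_lik h0 h1 c n) l, chY_child (good_lik h0 h1 c n) h0 h1⟩

lemma tY_nonpos (h0 : 0 ≤ l) (h1 : l ≤ 1) : ∀ (t : Tree) (n : ℕ), tY l t n ≤ 0
  | t, 0 => by rw [tY_zero]; norm_num
  | .nil, n + 1 => le_of_eq (tY_nil l n)
  | .cons c r, n + 1 => by
    unfold tY
    rw [lik_cons]
    refine le_trans (chY_prod_le ((good_lik h0 h1 c n).child h0 h1) (good_lik h0 h1 r (n + 1))
      ?_ (tY_nonpos h0 h1 r (n + 1))) ?_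
    · exact le_trans (child_vals h0 h1 c n).2
        (mul_nonpos_of_nonneg_of_nonpos (pow_nonneg h0 3) (tY_nonpos h0 h1 c n))
    · nlinarith [sq_nonneg (chX (fun o => edge l (lik l c n o)) * chX (lik l r (n + 1)))]

lemma tY_cons_le (h0 : 0 ≤ l) (h1 : l ≤ 1) (c r : Tree) (n : ℕ) :
    tY l (.cons c r) (n + 1) ≤ -((l ^ 2 * tX l c n) ^ 2 * tX l r (n + 1) ^ 2) / 8 := by
  unfold tY
  rw [lik_cons]
  have := chY_prod_le ((good_lik h0 h1 c n).child h0 h1) (good_lik h0 h1 r (n + 1))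
    (le_trans (child_vals h0 h1 c n).2
        (mul_nonpos_of_nonneg_of_nonpos (pow_nonneg h0 3) (tY_nonpos h0 h1 c n)))
    (tY_nonpos h0 h1 r (n + 1))
  rw [(child_vals h0 h1 c n).1] at this
  exact this

lemma tX_cons_le (h0 : 0 ≤ l) (h1 : l ≤ 1) (c r : Tree) (n : ℕ) :
    tX l (.cons c r) (n + 1)
      ≤ l ^ 2 * tX l c n + tX l r (n + 1) + l ^ 3 * tY l c n * tX l r (n + 1) / 2 := by
  have h := chX_prod_le ((good_lik h0 h1 c n).child h0 h1) (good_lik h0 h1 r (n + 1))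
  rw [← lik_cons, (child_vals h0 h1 c n).1] at h
  have a := mul_le_mul_of_nonneg_right (child_vals h0 h1 c n).2 (tX_mem h0 h1 r (n + 1)).1
  have b : l ^ 2 * tX l c n * tY l r (n + 1) ≤ 0 :=
    mul_nonpos_of_nonneg_of_nonpos (mul_nonneg (sq_nonneg _) (tX_mem h0 h1 c n).1)
      (tY_nonpos h0 h1 r (n + 1))
  change chX (lik l (.cons c r) (n + 1)) ≤ _
  refine h.trans ?_
  unfold tX tY at *
  linarith

lemma tX_cons_ge (h0 : 0 ≤ l) (h1 : l ≤ 1) (c r : Tree) (n : ℕ) :
    l ^ 2 * tX l c n ≤ tX l (.cons c r) (n + 1) := by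
  unfold tX
  rw [lik_cons, ← chX_child (good_lik h0 h1 c n) l]
  exact chX_prod_ge_left ((good_lik h0 h1 c n).child h0 h1) (good_lik h0 h1 r (n + 1))

/-- Sum over the children of the root. -/
noncomputable def kidsSum (f : Tree → ℝ) : Tree → ℝ
  | .nil => 0
  | .cons c r => f c + kidsSum f r

/-- Twice the sum over unordered pairs of children. -/
noncomputable def kidsPairs (f : Tree → ℝ) : Tree → ℝ
  | .nil => 0
  | .cons c r => 2 * f c * kidsSum f r + kidsPairs f r

lemma kidsSum_nonneg {f : Tree → ℝ} (hf : ∀ t, 0 ≤ f t) : ∀ t, 0 ≤ kidsSum f t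
  | .nil => le_rfl
  | .cons c r => add_nonneg (hf c) (kidsSum_nonneg hf r)

lemma kidsPairs_nonneg {f : Tree → ℝ} (hf : ∀ t, 0 ≤ f t) : ∀ t, 0 ≤ kidsPairs f t
  | .nil => le_rfl
  | .cons c r => add_nonneg
      (mul_nonneg (mul_nonneg zero_le_two (hf c)) (kidsSum_nonneg hf r)) (kidsPairs_nonneg hf r)

/-- Child signal. -/
noncomputable def sig (l : ℝ) (n : ℕ) (t : Tree) : ℝ := l ^ 2 * tX l t n

lemma sig_nonneg (h0 : 0 ≤ l) (h1 : l ≤ 1) (n : ℕ) (t : Tree) : 0 ≤ sig l n t :=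
  mul_nonneg (sq_nonneg _) (tX_mem h0 h1 t n).1

lemma tX_succ_le (h0 : 0 ≤ l) (h1 : l ≤ 1) (n : ℕ) :
    ∀ t, tX l t (n + 1) ≤ kidsSum (sig l n) t
  | .nil => le_of_eq (tX_nil l n)
  | .cons c r => by
    have h := tX_cons_le h0 h1 c r n
    have : l ^ 3 * tY l c n * tX l r (n + 1) ≤ 0 :=
      mul_nonpos_of_nonpos_of_nonneg
        (mul_nonpos_of_nonneg_of_nonpos (pow_nonneg h0 3) (tY_nonpos h0 h1 c n))
        (tX_mem h0 h1 r (n + 1)).1
    have := tX_succ_le h0 h1 n r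
    simp only [kidsSum, sig] at *
    linarith

/-- Strict gain from two children, the first of which has two children. -/
noncomputable def gain (l : ℝ) (n : ℕ) : Tree → ℝ
  | .cons (.cons a (.cons e _)) (.cons b _) =>
    l ^ 13 / 16 * (tX l a n ^ 2 * tX l e n ^ 2 * tX l b (n + 1))
  | _ => 0

lemma gain_nonneg (h0 : 0 ≤ l) (h1 : l ≤ 1) (n : ℕ) : ∀ t, 0 ≤ gain l n t := by
  intro t
  unfold gain
  split
  · next a e _ b _ => have := (tX_mem h0 h1 b (n + 1)).1; positivity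
  · exact le_rfl

lemma tX_gain (h0 : 0 ≤ l) (h1 : l ≤ 1) (n : ℕ) (t : Tree) :
    tX l t (n + 2) + gain l n t ≤ kidsSum (sig l (n + 1)) t := by
  unfold gain
  split
  · next a e r2 b r3 =>
      have hA := tX_cons_le h0 h1 (.cons a (.cons e r2)) (.cons b r3) (n + 1)
      have hY := tY_cons_le h0 h1 a (.cons e r2) n
      have he := tX_cons_ge h0 h1 e r2 n
      have hb := tX_cons_ge h0 h1 b r3 (n + 1)
      have hs := tX_succ_le h0 h1 (n + 1) (.cons b r3)
      have hea := pow_le_pow_left₀ (mul_nonneg (sq_nonneg l) (tX_mem h0 h1 e n).1) he 2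
      have hY2 : tY l (.cons a (.cons e r2)) (n + 1)
          ≤ -((l ^ 2 * tX l a n) ^ 2 * (l ^ 2 * tX l e n) ^ 2) / 8 := by
        nlinarith [mul_le_mul_of_nonneg_left hea (sq_nonneg (l ^ 2 * tX l a n))]
      have hneg : tY l (.cons a (.cons e r2)) (n + 1) * tX l (.cons b r3) (n + 1 + 1)
          ≤ tY l (.cons a (.cons e r2)) (n + 1) * (l ^ 2 * tX l b (n + 1)) :=
        mul_le_mul_of_nonpos_left hb (tY_nonpos h0 h1 _ _)
      have hfin := mul_le_mul_of_nonneg_right hY2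
        (mul_nonneg (sq_nonneg l) (tX_mem h0 h1 b (n + 1)).1)
      have hl3 := mul_le_mul_of_nonneg_left (hneg.trans hfin) (pow_nonneg h0 3)
      simp only [kidsSum, sig] at *
      ring_nf at *
      linarith
  · simpa using tX_succ_le h0 h1 (n + 1) t

lemma est_tree (h0 : 0 ≤ l) (h1 : l ≤ 1) (n : ℕ) : ∀ t, Est (lik l t (n + 1))
    (kidsSum (sig l n) t) (kidsSum (sig l n) t + kidsPairs (sig l n) t)
  | .nil => by simpa [kidsSum, kidsPairs] using est_zero (lik l Tree.nil (n + 1))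
  | .cons c r => by
    have hc := est_self ((good_lik h0 h1 c n).child h0 h1)
    rw [(child_vals h0 h1 c n).1] at hc
    have h := est_prod ((good_lik h0 h1 c n).child h0 h1) (good_lik h0 h1 r (n + 1)) hc
      (est_tree h0 h1 n r)
    rw [← lik_cons] at h
    simp only [kidsSum, kidsPairs]
    have e : sig l n c + kidsSum (sig l n) r
          + (2 * sig l n c * kidsSum (sig l n) r + kidsPairs (sig l n) r)
        = l ^ 2 * tX l c n + (kidsSum (sig l n) r + kidsPairs (sig l n) r)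
          + 2 * (l ^ 2 * tX l c n) * kidsSum (sig l n) r := by unfold sig; ring
    rw [e]
    exact h

lemma tX_succ_ge (h0 : 0 ≤ l) (h1 : l ≤ 1) (n : ℕ) (t : Tree) {c : ℝ} :
    2 * c * kidsSum (sig l n) t
      ≤ tX l t (n + 1) + c ^ 2 * (kidsSum (sig l n) t + kidsPairs (sig l n) t) := by
  have h : kidsSum (sig l n) t ^ 2
      ≤ tX l t (n + 1) * (kidsSum (sig l n) t + kidsPairs (sig l n) t) :=
    est_le (good_lik h0 h1 t (n + 1)) (est_tree h0 h1 n t)
  have hA := kidsSum_nonneg (sig_nonneg h0 h1 n) t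
  have hP := kidsPairs_nonneg (sig_nonneg h0 h1 n) t
  have hX := (tX_mem h0 h1 t (n + 1)).1
  set A := kidsSum (sig l n) t
  set P := kidsPairs (sig l n) t
  rcases (add_nonneg hA hP).eq_or_lt with hB | hB
  · have : A = 0 := by linarith
    rw [this]; nlinarith [sq_nonneg c]
  · refine le_of_mul_le_mul_right ?_ hB
    nlinarith [sq_nonneg (A - c * (A + P))]

lemma abs_ratio {s u η : ℝ} (hs : 0 < s) (hη : 0 < η) :
    |u| ≤ η * s + u ^ 2 / s / (4 * η) := by
  have h := sq_nonneg (|u| - 2 * η * s)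
  have e : η * s + u ^ 2 / s / (4 * η) - |u| = (|u| - 2 * η * s) ^ 2 / (4 * η * s) := by
    rw [← sq_abs u]; field_simp; ring
  have : 0 ≤ (|u| - 2 * η * s) ^ 2 / (4 * η * s) := by positivity
  linarith

lemma aTree_eq (h0 : 0 ≤ l) (h1 : l ≤ 1) (t : Tree) (n : ℕ) :
    aTree l t n = (∑ o, ∑ i, |lik l t n o i - mass (lik l t n o) / 3|) / 6 := by
  rw [Finset.sum_div]
  unfold aTree
  refine Finset.sum_congr rfl fun o _ => ?_
  rw [← mass_eq_sum]
  rcases (mass_nonneg ((good_lik h0 h1 t n).nonneg o)).eq_or_lt with h | h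
  · simp [← h, eq_zero_of_mass ((good_lik h0 h1 t n).nonneg o) h.symm]
  · have : ∀ i, |lik l t n o i / mass (lik l t n o) - 1 / 3|
        = |lik l t n o i - mass (lik l t n o) / 3| / mass (lik l t n o) := by
      intro i
      conv_rhs => rw [← abs_of_pos h, ← abs_div, abs_of_pos h]
      congr 1; field_simp
    simp only [this, ← Finset.sum_div]
    field_simp
    ring

lemma aTree_le (h0 : 0 ≤ l) (h1 : l ≤ 1) (t : Tree) (n : ℕ) {η : ℝ} (hη : 0 < η) :
    aTree l t n ≤ 3 / 2 * η + tX l t n / (12 * η) := by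
  have hG := good_lik h0 h1 t n
  rw [aTree_eq h0 h1]
  have key : ∑ o, ∑ i, |lik l t n o i - mass (lik l t n o) / 3|
      ≤ ∑ o, ∑ i, (η * mass (lik l t n o)
        + (lik l t n o i - mass (lik l t n o) / 3) ^ 2 / mass (lik l t n o) / (4 * η)) := by
    refine Finset.sum_le_sum fun o _ => Finset.sum_le_sum fun i _ => ?_
    rcases (mass_nonneg (hG.nonneg o)).eq_or_lt with h | h
    · simp [← h, eq_zero_of_mass (hG.nonneg o) h.symm]
    · exact abs_ratio h hη
  have e2 : ∑ o, ∑ i, (η * mass (lik l t n o)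
        + (lik l t n o i - mass (lik l t n o) / 3) ^ 2 / mass (lik l t n o) / (4 * η))
      = 9 * η + 2 * chX (lik l t n) / (4 * η) := by
    rw [← two_chX hG, Finset.sum_div]
    simp only [Finset.sum_add_distrib, Finset.sum_div]
    simp only [Finset.sum_const, Finset.card_univ, Fintype.card_fin, nsmul_eq_mul,
      ← Finset.mul_sum, hG.sum_mass]
    push_cast; ring
  rw [e2] at key
  have e : 2 * chX (lik l t n) / (4 * η) = 6 * (tX l t n / (12 * η)) := by
    unfold tX; field_simp; ring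
  linarith

lemma tX_le_aTree (h0 : 0 ≤ l) (h1 : l ≤ 1) (t : Tree) (n : ℕ) :
    tX l t n ≤ 3 * aTree l t n := by
  have hG := good_lik h0 h1 t n
  rw [aTree_eq h0 h1]
  have key : ∑ o, ∑ i, (lik l t n o i - mass (lik l t n o) / 3) ^ 2 / mass (lik l t n o)
      ≤ ∑ o, ∑ i, |lik l t n o i - mass (lik l t n o) / 3| := by
    refine Finset.sum_le_sum fun o _ => Finset.sum_le_sum fun i _ => ?_
    rcases (mass_nonneg (hG.nonneg o)).eq_or_lt with h | h
    · simp [← h, eq_zero_of_mass (hG.nonneg o) h.symm]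
    · have hle : |lik l t n o i - mass (lik l t n o) / 3| ≤ mass (lik l t n o) := by
        have := hG.nonneg o 0; have := hG.nonneg o 1; have := hG.nonneg o 2
        rw [abs_le]; fin_cases i <;> constructor <;> simp [mass] <;> linarith
      rw [div_le_iff₀ h, ← sq_abs, sq]
      exact mul_le_mul_of_nonneg_left hle (abs_nonneg _)
  rw [two_chX hG] at key
  unfold tX
  linarith

lemma aTree_nonneg (h0 : 0 ≤ l) (h1 : l ≤ 1) (t : Tree) (n : ℕ) : 0 ≤ aTree l t n := by
  linarith [tX_le_aTree h0 h1 t n, (tX_mem h0 h1 t n).1]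

end Vale.Agent.P154
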