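import Mathlib
import Vale.Agent.P154.TreeBound

namespace Vale.Agent.P154

open Filter Topology

variable {l : ℝ}

lemma tX_le_level (h0 : 0 ≤ l) (h1 : l ≤ 1) :
    ∀ (t : Tree) (n : ℕ), tX l t n ≤ (levelSize t n : ℝ) * l ^ (2 * n)
  | t, 0 => by rw [tX_zero]; cases t <;> simp [levelSize]
  | .nil, n + 1 => by simp [tX_nil, levelSize]
  | .cons c r, n + 1 => by
    have h := tX_cons_le h0 h1 c r n
    have hn : l ^ 3 * tY l c n * tX l r (n + 1) ≤ 0 :=
      mul_nonpos_of_nonpos_of_nonneg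
        (mul_nonpos_of_nonneg_of_nonpos (pow_nonneg h0 3) (tY_nonpos h0 h1 c n))
        (tX_mem h0 h1 r (n + 1)).1
    have hc := mul_le_mul_of_nonneg_left (tX_le_level h0 h1 c n) (sq_nonneg l)
    have hr := tX_le_level h0 h1 r (n + 1)
    have hp : l ^ (2 * (n + 1)) = l ^ 2 * l ^ (2 * n) := by rw [← pow_add]; ring_nf
    simp only [levelSize]
    push_cast
    rw [hp] at hr ⊢
    nlinarith

theorem tree_nonreconstruction (h0 : 0 ≤ l) (h1 : l ≤ 1) (T : ℕ → Tree)
    (hT : Tendsto (fun n => (levelSize (T n) n : ℝ) * l ^ (2 * n)) atTop (𝓝 0)) :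
    Tendsto (fun n => aTree l (T n) n) atTop (𝓝 0) := by
  rw [Metric.tendsto_atTop]
  intro ε hε
  obtain ⟨N, hN⟩ := Metric.tendsto_atTop.1 hT (2 * ε * (ε / 3)) (by positivity)
  refine ⟨N, fun n hn => ?_⟩
  have h2 := aTree_le h0 h1 (T n) n (η := ε / 3) (by linarith)
  have h3 := hN n hn
  rw [Real.dist_eq, sub_zero] at h3
  have h4 := lt_of_le_of_lt ((tX_le_level h0 h1 (T n) n).trans (le_abs_self _)) h3
  have h5 : tX l (T n) n / (12 * (ε / 3)) < ε / 2 := by
    rw [div_lt_iff₀ (by positivity)]; nlinarith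
  rw [Real.dist_eq, sub_zero, abs_of_nonneg (aTree_nonneg h0 h1 _ n)]
  linarith

end Vale.Agent.P154
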