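import Mathlib
import Vale.Agent.P154.TreeBound

namespace Vale.Agent.P154

open Filter Topology

/-- Abstract limit: a bounded nonnegative sequence with a strict fifth-order loss tends to zero. -/
lemma seq_to_zero {m : ℕ → ℝ} {q K : ℝ} (hm : ∀ n, 0 ≤ m n) (hq : q ≤ 1)
    (hK : 0 < K) (hle : ∀ n, m (n + 1) ≤ q * m n)
    (hgain : ∀ n, m (n + 2) + K * (m n ^ 4 * m (n + 1)) ≤ q * m (n + 1)) :
    Tendsto m atTop (𝓝 0) := by
  have hanti : Antitone m := antitone_nat_of_succ_le fun n =>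
    (hle n).trans (by simpa using mul_le_mul_of_nonneg_right hq (hm n))
  have hb : BddBelow (Set.range m) := ⟨0, by rintro _ ⟨n, rfl⟩; exact hm n⟩
  have hL := tendsto_atTop_ciInf hanti hb
  set L := ⨅ n, m n
  have hL0 : 0 ≤ L := le_ciInf hm
  have h1 : Tendsto (fun n => m (n + 1)) atTop (𝓝 L) := hL.comp (tendsto_add_atTop_nat 1)
  have h2 : Tendsto (fun n => m (n + 2)) atTop (𝓝 L) := hL.comp (tendsto_add_atTop_nat 2)
  have hlim : L + K * (L ^ 4 * L) ≤ L :=
    le_of_tendsto_of_tendsto (h2.add (((hL.pow 4).mul h1).const_mul K)) h1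
      (Eventually.of_forall fun n =>
        (hgain n).trans (by simpa using mul_le_mul_of_nonneg_right hq (hm (n + 1))))
  have : L = 0 := by
    by_contra hne
    have : 0 < L := lt_of_le_of_ne hL0 (Ne.symm hne)
    have : 0 < K * (L ^ 4 * L) := by positivity
    linarith
  rwa [this] at hL

/-- Abstract lower bound above the Kesten-Stigum threshold. -/
lemma seq_lower {m : ℕ → ℝ} {q : ℝ} (hq : 1 < q) (h0 : (q - 1) / q ≤ m 0) (hm : ∀ n, 0 ≤ m n)
    (hstep : ∀ n, q * m n / (1 + q * m n) ≤ m (n + 1)) : ∀ n, (q - 1) / q ≤ m n := by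
  intro n
  induction n with
  | zero => exact h0
  | succ n ih =>
    refine le_trans ?_ (hstep n)
    have hqm : 0 ≤ q * m n := mul_nonneg (by linarith) (hm n)
    have h := mul_le_mul_of_nonneg_left ih (by linarith : (0:ℝ) ≤ q)
    rw [mul_div_cancel₀ _ (by linarith : q ≠ 0)] at h
    rw [div_le_div_iff₀ (by linarith) (by linarith)]
    nlinarith

/-- Passing from the second moment to the total variation distance. -/
lemma tv_to_zero {a m : ℕ → ℝ} (hm : Tendsto m atTop (𝓝 0)) (ha : ∀ n, 0 ≤ a n)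
    (h : ∀ n, ∀ η : ℝ, 0 < η → a n ≤ 3 / 2 * η + m n / (12 * η)) : Tendsto a atTop (𝓝 0) := by
  rw [Metric.tendsto_atTop]
  intro ε hε
  have hη : (0:ℝ) < ε / 3 := by linarith
  obtain ⟨N, hN⟩ := Metric.tendsto_atTop.1 hm (2 * ε * (ε / 3)) (by positivity)
  refine ⟨N, fun n hn => ?_⟩
  have h1 := h n _ hη
  have h2 : m n / (12 * (ε / 3)) < ε / 2 := by
    have := hN n hn
    rw [Real.dist_eq, sub_zero] at this
    rw [div_lt_iff₀ (by positivity)]
    have := le_abs_self (m n)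
    nlinarith
  rw [Real.dist_eq, sub_zero, abs_of_nonneg (ha n)]
  linarith

lemma kidsSum_iter (f : Tree → ℝ) (c : Tree) :
    ∀ k : ℕ, kidsSum f ((Tree.cons c)^[k] .nil) = k * f c
  | 0 => by simp [kidsSum]
  | k + 1 => by
    rw [Function.iterate_succ_apply', kidsSum, kidsSum_iter f c k]; push_cast; ring

lemma kidsPairs_iter (f : Tree → ℝ) (c : Tree) :
    ∀ k : ℕ, kidsPairs f ((Tree.cons c)^[k] .nil) = (k : ℝ) * ((k : ℝ) - 1) * f c ^ 2
  | 0 => by simp [kidsPairs]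
  | k + 1 => by
    rw [Function.iterate_succ_apply', kidsPairs, kidsSum_iter, kidsPairs_iter f c k]
    push_cast; ring

variable {l : ℝ} {d : ℕ}

/-- Second moment on the complete tree. -/
noncomputable def mReg (l : ℝ) (d n : ℕ) : ℝ := tX l (fullTree d n) n

lemma full_two (hd : 2 ≤ d) (n : ℕ) : ∃ r,
    fullTree d (n + 1) = .cons (fullTree d n) (.cons (fullTree d n) r) := by
  obtain ⟨k, rfl⟩ := Nat.exists_eq_add_of_le hd
  refine ⟨(Tree.cons (fullTree (2 + k) n))^[k] .nil, ?_⟩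
  rw [fullTree, Function.iterate_add_apply]
  rfl

lemma mReg_le (h0 : 0 ≤ l) (h1 : l ≤ 1) (n : ℕ) :
    mReg l d (n + 1) ≤ (d : ℝ) * l ^ 2 * mReg l d n := by
  refine (tX_succ_le h0 h1 n _).trans (le_of_eq ?_)
  rw [fullTree, kidsSum_iter, sig, mReg]; ring

lemma mReg_gain (h0 : 0 ≤ l) (h1 : l ≤ 1) (hd : 2 ≤ d) (n : ℕ) :
    mReg l d (n + 2) + l ^ 13 / 16 * (mReg l d n ^ 4 * mReg l d (n + 1))
      ≤ (d : ℝ) * l ^ 2 * mReg l d (n + 1) := by
  obtain ⟨r, hr⟩ := full_two hd n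
  obtain ⟨r', hr'⟩ := full_two hd (n + 1)
  have h := tX_gain h0 h1 n (fullTree d (n + 2))
  have hg : gain l n (fullTree d (n + 2))
      = l ^ 13 / 16 * (mReg l d n ^ 4 * mReg l d (n + 1)) := by
    rw [hr']
    conv_lhs => enter [3, 1]; rw [hr]
    simp only [gain, mReg]
    ring
  have hk : kidsSum (sig l (n + 1)) (fullTree d (n + 2)) = (d : ℝ) * l ^ 2 * mReg l d (n + 1) := by
    rw [fullTree, kidsSum_iter, sig, mReg]; ring
  rw [hg, hk] at h
  exact h

lemma mReg_step (h0 : 0 ≤ l) (h1 : l ≤ 1) (n : ℕ) :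
    (d : ℝ) * l ^ 2 * mReg l d n / (1 + (d : ℝ) * l ^ 2 * mReg l d n) ≤ mReg l d (n + 1) := by
  have hy : 0 ≤ (d : ℝ) * l ^ 2 * mReg l d n :=
    mul_nonneg (by positivity) (tX_mem h0 h1 _ n).1
  set u := (d : ℝ) * l ^ 2 * mReg l d n with hu
  have h := tX_succ_ge h0 h1 n (fullTree d (n + 1)) (c := 1 / (1 + u))
  rw [fullTree, kidsSum_iter, kidsPairs_iter, sig] at h
  rw [show (d : ℝ) * (l ^ 2 * tX l (fullTree d n) n) = u by rw [hu, mReg]; ring] at h
  have hp : (d : ℝ) * ((d : ℝ) - 1) * (l ^ 2 * tX l (fullTree d n) n) ^ 2 ≤ u ^ 2 := by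
    rw [hu, mReg]
    nlinarith [mul_nonneg (Nat.cast_nonneg (α := ℝ) d) (sq_nonneg (l ^ 2 * tX l (fullTree d n) n))]
  have hc := mul_le_mul_of_nonneg_left hp (sq_nonneg (1 / (1 + u)))
  have e : 2 * (1 / (1 + u)) * u - (1 / (1 + u)) ^ 2 * (u + u ^ 2) = u / (1 + u) := by
    have : (1 + u) ≠ 0 := by linarith
    field_simp; ring
  unfold mReg
  rw [fullTree]
  linarith

theorem reg_nonreconstruction (h0 : 0 ≤ l) (h1 : l ≤ 1) (hd : 2 ≤ d)
    (hq : (d : ℝ) * l ^ 2 ≤ 1) : Tendsto (aReg l d) atTop (𝓝 0) := by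
  refine tv_to_zero (m := mReg l d) ?_ (fun n => aTree_nonneg h0 h1 _ n)
    (fun n η hη => aTree_le h0 h1 _ n hη)
  rcases h0.eq_or_lt with hz | hl
  · have hzero : ∀ n, mReg l d (n + 1) = 0 := fun n =>
      le_antisymm ((mReg_le h0 h1 n).trans (by simp [← hz])) (tX_mem h0 h1 _ _).1
    rw [← tendsto_add_atTop_iff_nat 1]
    simp [hzero]
  · exact seq_to_zero (fun n => (tX_mem h0 h1 _ n).1) hq (by positivity)
      (mReg_le h0 h1) (mReg_gain h0 h1 hd)

theorem reg_reconstruction (h0 : 0 ≤ l) (h1 : l ≤ 1) (hq : 1 < (d : ℝ) * l ^ 2) :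
    ∃ c > 0, ∀ n, c ≤ aReg l d n := by
  refine ⟨((d : ℝ) * l ^ 2 - 1) / ((d : ℝ) * l ^ 2) / 3,
    div_pos (div_pos (by linarith) (by linarith)) (by norm_num), fun n => ?_⟩
  have h := seq_lower (m := mReg l d) hq ?_ (fun n => (tX_mem h0 h1 _ n).1) (mReg_step h0 h1) n
  · have := tX_le_aTree h0 h1 (fullTree d n) n
    unfold aReg
    unfold mReg at h
    linarith
  · rw [mReg, tX_zero, div_le_one (by linarith)]; linarith

end Vale.Agent.P154
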