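import Mathlib
import Vale.Agent.P154.RegTree

namespace Vale.Agent.P154

open Filter Topology ENNReal

/-- Forward map of the decomposition. -/
def treeJoin : Option (Tree × Tree) → Tree
  | none => .nil
  | some (c, r) => .cons c r

/-- Inverse map of the decomposition. -/
def treeSplit : Tree → Option (Tree × Tree)
  | .nil => none
  | .cons c r => some (c, r)

/-- Trees are either childless or a first child and the remaining root. -/
def treeEquiv : Option (Tree × Tree) ≃ Tree where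
  toFun := treeJoin
  invFun := treeSplit
  left_inv x := by rcases x with _ | ⟨c, r⟩ <;> rfl
  right_inv x := by cases x <;> rfl

lemma tsum_tree (F : Tree → ℝ≥0∞) : ∑' t, F t = F .nil + ∑' c, ∑' r, F (.cons c r) := by
  rw [← treeEquiv.tsum_eq, ENNReal.tsum_eq_add_tsum_ite none]
  congr 1
  have hi : Function.Injective (some : Tree × Tree → Option (Tree × Tree)) := Option.some_injective _
  refine (hi.tsum_eq ?_).symm.trans ?_
  · intro x hx
    rcases x with _ | y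
    · simp at hx
    · exact ⟨y, rfl⟩
  · rw [ENNReal.tsum_prod']
    refine tsum_congr fun c => tsum_congr fun r => ?_
    simp only [reduceCtorEq, if_false]
    rfl

/-- Weight of a tree. -/
noncomputable def wgt (d : ℝ) (n : ℕ) (t : Tree) : ℝ≥0∞ := ENNReal.ofReal (gwProb d n t)

/-- Poisson weight. -/
noncomputable def pw (d : ℝ) (k : ℕ) : ℝ≥0∞ :=
  ENNReal.ofReal (Real.exp (-d) * d ^ k / k.factorial)

/-- Expectation at depth n. -/
noncomputable def Ex (d : ℝ) (n : ℕ) (F : Tree → ℝ≥0∞) : ℝ≥0∞ := ∑' t, wgt d n t * F t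

/-- Product weight over children. -/
noncomputable def kp (w : Tree → ℝ≥0∞) : Tree → ℝ≥0∞
  | .nil => 1
  | .cons c r => w c * kp w r

/-- Sum over root configurations with exactly k children. -/
noncomputable def lev (w : Tree → ℝ≥0∞) (k : ℕ) (F : Tree → ℝ≥0∞) : ℝ≥0∞ :=
  ∑' t, if numKids t = k then kp w t * F t else 0

lemma lev_zero (w F : Tree → ℝ≥0∞) : lev w 0 F = F .nil := by
  rw [lev, tsum_tree]; simp [numKids, kp]

lemma lev_succ (w F : Tree → ℝ≥0∞) (k : ℕ) :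
    lev w (k + 1) F = ∑' c, w c * lev w k (fun r => F (.cons c r)) := by
  rw [lev, tsum_tree]
  simp only [numKids, kp, add_left_inj, (Nat.succ_ne_zero k).symm, if_false, zero_add]
  refine tsum_congr fun c => ?_
  rw [lev, ← ENNReal.tsum_mul_left]
  refine tsum_congr fun r => ?_
  split_ifs <;> simp [mul_assoc]

lemma lev_add (w F G : Tree → ℝ≥0∞) (k : ℕ) :
    lev w k (fun t => F t + G t) = lev w k F + lev w k G := by
  rw [lev, lev, lev, ← ENNReal.tsum_add]
  refine tsum_congr fun t => ?_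
  split_ifs <;> simp [mul_add]

lemma lev_mul (w F : Tree → ℝ≥0∞) (k : ℕ) (a : ℝ≥0∞) :
    lev w k (fun t => a * F t) = a * lev w k F := by
  rw [lev, lev, ← ENNReal.tsum_mul_left]
  refine tsum_congr fun t => ?_
  split_ifs <;> simp [mul_left_comm]

lemma lev_one (w : Tree → ℝ≥0∞) (hw : ∑' t, w t = 1) : ∀ k, lev w k (fun _ => 1) = 1
  | 0 => lev_zero w _
  | k + 1 => by rw [lev_succ]; simp [lev_one w hw k, hw]

/-- Nonnegative kids sum. -/
noncomputable def kSum (g : Tree → ℝ≥0∞) : Tree → ℝ≥0∞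
  | .nil => 0
  | .cons c r => g c + kSum g r

/-- Nonnegative kids pairs. -/
noncomputable def kPairs (g : Tree → ℝ≥0∞) : Tree → ℝ≥0∞
  | .nil => 0
  | .cons c r => 2 * g c * kSum g r + kPairs g r

lemma ofReal_kidsSum {g : Tree → ℝ} (hg : ∀ t, 0 ≤ g t) :
    ∀ t, ENNReal.ofReal (kidsSum g t) = kSum (fun t => ENNReal.ofReal (g t)) t
  | .nil => by simp [kidsSum, kSum]
  | .cons c r => by
    rw [kidsSum, ENNReal.ofReal_add (hg c) (kidsSum_nonneg hg r), ofReal_kidsSum hg r]; rfl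

lemma ofReal_kidsPairs {g : Tree → ℝ} (hg : ∀ t, 0 ≤ g t) :
    ∀ t, ENNReal.ofReal (kidsPairs g t) = kPairs (fun t => ENNReal.ofReal (g t)) t
  | .nil => by simp [kidsPairs, kPairs]
  | .cons c r => by
    rw [kidsPairs, ENNReal.ofReal_add (mul_nonneg (mul_nonneg zero_le_two (hg c))
      (kidsSum_nonneg hg r)) (kidsPairs_nonneg hg r), ofReal_kidsPairs hg r,
      ENNReal.ofReal_mul (mul_nonneg zero_le_two (hg c)), ENNReal.ofReal_mul zero_le_two,
      ofReal_kidsSum hg r, kPairs]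
    simp

lemma lev_kSum (w g : Tree → ℝ≥0∞) (hw : ∑' t, w t = 1) :
    ∀ k : ℕ, lev w k (kSum g) = (k : ℝ≥0∞) * ∑' t, w t * g t
  | 0 => by simp [lev_zero, kSum]
  | k + 1 => by
    rw [lev_succ]
    have : ∀ c, lev w k (fun r => kSum g (.cons c r))
        = g c + (k : ℝ≥0∞) * ∑' t, w t * g t := by
      intro c
      simp only [kSum]
      rw [lev_add]
      have := lev_mul w (fun _ => 1) k (g c)
      simp only [mul_one] at this
      rw [this, lev_one w hw, mul_one, lev_kSum w g hw k]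
    simp only [this, mul_add, ENNReal.tsum_add]
    rw [ENNReal.tsum_mul_right, hw]
    push_cast; ring

lemma lev_kPairs (w g : Tree → ℝ≥0∞) (hw : ∑' t, w t = 1) :
    ∀ k : ℕ, lev w k (kPairs g) = ((k * (k - 1) : ℕ) : ℝ≥0∞) * (∑' t, w t * g t) ^ 2
  | 0 => by simp [lev_zero, kPairs]
  | k + 1 => by
    rw [lev_succ]
    have : ∀ c, lev w k (fun r => kPairs g (.cons c r))
        = 2 * g c * ((k : ℝ≥0∞) * ∑' t, w t * g t)
          + ((k * (k - 1) : ℕ) : ℝ≥0∞) * (∑' t, w t * g t) ^ 2 := by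
      intro c
      simp only [kPairs]
      rw [lev_add, lev_mul, lev_kSum w g hw k, lev_kPairs w g hw k]
    simp only [this, mul_add, ENNReal.tsum_add]
    rw [ENNReal.tsum_mul_right (a := ((k * (k - 1) : ℕ) : ℝ≥0∞) * _), hw]
    have e : ∀ c, w c * (2 * g c * ((k : ℝ≥0∞) * ∑' t, w t * g t))
        = (w c * g c) * (2 * ((k : ℝ≥0∞) * ∑' t, w t * g t)) := fun c => by ring
    simp only [e]
    rw [ENNReal.tsum_mul_right]
    have hn : (k + 1) * (k + 1 - 1) = 2 * k + k * (k - 1) := by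
      rcases k with _ | j
      · rfl
      · simp; ring
    rw [hn]
    push_cast; ring

variable {d l : ℝ}

lemma gwProb_nonneg (hd : 0 ≤ d) : ∀ (n : ℕ) (t : Tree), 0 ≤ gwProb d n t
  | 0, .nil => zero_le_one
  | 0, .cons _ _ => le_rfl
  | n + 1, t => by
    have : ∀ t, 0 ≤ kidsProd (gwProb d n) t := by
      intro t
      induction t with
      | nil => exact zero_le_one
      | cons c r _ ih => exact mul_nonneg (gwProb_nonneg hd n c) ih
    show 0 ≤ Real.exp (-d) * d ^ numKids t / (numKids t).factorial * kidsProd (gwProb d n) t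
    have := this t
    positivity

lemma wgt_succ (hd : 0 ≤ d) (n : ℕ) (t : Tree) :
    wgt d (n + 1) t = pw d (numKids t) * kp (wgt d n) t := by
  have hk : ∀ t, 0 ≤ kidsProd (gwProb d n) t := by
    intro t
    induction t with
    | nil => exact zero_le_one
    | cons c r _ ih => exact mul_nonneg (gwProb_nonneg hd n c) ih
  have he : ∀ t, ENNReal.ofReal (kidsProd (gwProb d n) t) = kp (wgt d n) t := by
    intro t
    induction t with
    | nil => simp [kidsProd, kp]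
    | cons c r _ ih => rw [kidsProd, ENNReal.ofReal_mul (gwProb_nonneg hd n c), ih]; rfl
  rw [wgt, gwProb, ENNReal.ofReal_mul (by positivity), he]
  rfl

lemma Ex_succ (hd : 0 ≤ d) (n : ℕ) (F : Tree → ℝ≥0∞) :
    Ex d (n + 1) F = ∑' k, pw d k * lev (wgt d n) k F := by
  simp only [Ex, lev, ← ENNReal.tsum_mul_left]
  rw [ENNReal.tsum_comm]
  refine tsum_congr fun t => ?_
  rw [tsum_eq_single (numKids t) (fun k hk => by simp [Ne.symm hk]), wgt_succ hd]
  simp [mul_assoc]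

lemma hasSum_pois (d : ℝ) :
    HasSum (fun k : ℕ => Real.exp (-d) * d ^ k / k.factorial) 1 := by
  have h := (NormedSpace.expSeries_div_hasSum_exp d).mul_left (Real.exp (-d))
  rw [← Real.exp_eq_exp_ℝ, ← Real.exp_add, neg_add_cancel, Real.exp_zero] at h
  simpa only [mul_div_assoc] using h

lemma tsum_pw (hd : 0 ≤ d) : ∑' k, pw d k = 1 := by
  simp only [pw]
  rw [← ENNReal.ofReal_tsum_of_nonneg (fun k => by positivity) (hasSum_pois d).summable,
    (hasSum_pois d).tsum_eq, ENNReal.ofReal_one]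

lemma pw_succ (hd : 0 ≤ d) (k : ℕ) :
    pw d (k + 1) * ((k + 1 : ℕ) : ℝ≥0∞) = ENNReal.ofReal d * pw d k := by
  rw [pw, pw, ← ENNReal.ofReal_natCast, ← ENNReal.ofReal_mul (by positivity),
    ← ENNReal.ofReal_mul hd]
  congr 1
  rw [Nat.factorial_succ]
  push_cast
  field_simp
  ring

lemma tsum_pw_mul (hd : 0 ≤ d) : ∑' k : ℕ, pw d k * (k : ℝ≥0∞) = ENNReal.ofReal d := by
  rw [tsum_eq_zero_add' ENNReal.summable]
  simp only [Nat.cast_zero, mul_zero, zero_add, pw_succ hd, ENNReal.tsum_mul_left, tsum_pw hd,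
    mul_one]

lemma tsum_pw_pairs (hd : 0 ≤ d) :
    ∑' k : ℕ, pw d k * ((k * (k - 1) : ℕ) : ℝ≥0∞) = ENNReal.ofReal d ^ 2 := by
  rw [tsum_eq_zero_add' ENNReal.summable]
  have : ∀ k : ℕ, pw d (k + 1) * (((k + 1) * (k + 1 - 1) : ℕ) : ℝ≥0∞)
      = ENNReal.ofReal d * (pw d k * (k : ℝ≥0∞)) := by
    intro k
    rw [Nat.add_sub_cancel, Nat.cast_mul, ← mul_assoc, pw_succ hd, mul_assoc]
  simp only [this, ENNReal.tsum_mul_left, tsum_pw_mul hd]
  simp [sq]

lemma tsum_wgt (hd : 0 ≤ d) : ∀ n, ∑' t, wgt d n t = 1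
  | 0 => by
    rw [tsum_tree]
    simp [wgt, gwProb]
  | n + 1 => by
    have h := Ex_succ hd n (fun _ => 1)
    simp only [Ex, mul_one, lev_one _ (tsum_wgt hd n), tsum_pw hd] at h
    exact h

lemma summable_gw (hd : 0 ≤ d) (n : ℕ) : Summable (gwProb d n) := by
  have h : ∑' t, wgt d n t ≠ ⊤ := by rw [tsum_wgt hd n]; exact one_ne_top
  have := ENNReal.summable_toReal h
  simpa [wgt, ENNReal.toReal_ofReal (gwProb_nonneg hd n _)] using this

lemma summable_bdd (hd : 0 ≤ d) (n : ℕ) {f : Tree → ℝ} {B : ℝ} (h0 : ∀ t, 0 ≤ f t)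
    (hB : ∀ t, f t ≤ B) : Summable (fun t => gwProb d n t * f t) :=
  Summable.of_nonneg_of_le (fun t => mul_nonneg (gwProb_nonneg hd n t) (h0 t))
    (fun t => mul_le_mul_of_nonneg_left (hB t) (gwProb_nonneg hd n t))
    ((summable_gw hd n).mul_right B)

lemma gw_total (hd : 0 ≤ d) (n : ℕ) : ∑' t, gwProb d n t = 1 := by
  have := tsum_wgt hd n
  simp only [wgt] at this
  rw [← ENNReal.ofReal_tsum_of_nonneg (gwProb_nonneg hd n) (summable_gw hd n)] at this
  exact ENNReal.ofReal_eq_one.1 this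

lemma Ex_ofReal (hd : 0 ≤ d) (n : ℕ) {f : Tree → ℝ} (h0 : ∀ t, 0 ≤ f t)
    (hs : Summable (fun t => gwProb d n t * f t)) :
    Ex d n (fun t => ENNReal.ofReal (f t)) = ENNReal.ofReal (∑' t, gwProb d n t * f t) := by
  rw [ENNReal.ofReal_tsum_of_nonneg (fun t => mul_nonneg (gwProb_nonneg hd n t) (h0 t)) hs]
  exact tsum_congr fun t => (ENNReal.ofReal_mul (gwProb_nonneg hd n t)).symm

/-- Averaged second moment. -/
noncomputable def mGW (l d : ℝ) (n : ℕ) : ℝ := ∑' t, gwProb d n t * tX l t n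

lemma summable_X (hd : 0 ≤ d) (h0 : 0 ≤ l) (h1 : l ≤ 1) (m n : ℕ) :
    Summable (fun t => gwProb d n t * tX l t m) :=
  summable_bdd hd n (fun t => (tX_mem h0 h1 t m).1) (fun t => (tX_mem h0 h1 t m).2)

lemma mGW_nonneg (hd : 0 ≤ d) (h0 : 0 ≤ l) (h1 : l ≤ 1) (n : ℕ) : 0 ≤ mGW l d n :=
  tsum_nonneg fun t => mul_nonneg (gwProb_nonneg hd n t) (tX_mem h0 h1 t n).1

lemma Ex_X (hd : 0 ≤ d) (h0 : 0 ≤ l) (h1 : l ≤ 1) (n : ℕ) :
    Ex d n (fun t => ENNReal.ofReal (tX l t n)) = ENNReal.ofReal (mGW l d n) :=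
  Ex_ofReal hd n (fun t => (tX_mem h0 h1 t n).1) (summable_X hd h0 h1 n n)

lemma Ex_sig (hd : 0 ≤ d) (h0 : 0 ≤ l) (h1 : l ≤ 1) (n : ℕ) :
    ∑' t, wgt d n t * ENNReal.ofReal (sig l n t) = ENNReal.ofReal (l ^ 2 * mGW l d n) := by
  have : ∀ t, wgt d n t * ENNReal.ofReal (sig l n t)
      = ENNReal.ofReal (l ^ 2) * (wgt d n t * ENNReal.ofReal (tX l t n)) := by
    intro t; rw [sig, ENNReal.ofReal_mul (sq_nonneg l)]; ring
  simp only [this, ENNReal.tsum_mul_left]
  rw [show ∑' t, wgt d n t * ENNReal.ofReal (tX l t n) = ENNReal.ofReal (mGW l d n) from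
    Ex_X hd h0 h1 n, ← ENNReal.ofReal_mul (sq_nonneg l)]

lemma Ex_kidsSum (hd : 0 ≤ d) (h0 : 0 ≤ l) (h1 : l ≤ 1) (n : ℕ) :
    Ex d (n + 1) (fun t => ENNReal.ofReal (kidsSum (sig l n) t))
      = ENNReal.ofReal (d * l ^ 2 * mGW l d n) := by
  simp only [ofReal_kidsSum (sig_nonneg h0 h1 n)]
  rw [Ex_succ hd]
  simp only [lev_kSum _ _ (tsum_wgt hd n), Ex_sig hd h0 h1, ← mul_assoc]
  rw [ENNReal.tsum_mul_right, tsum_pw_mul hd, ← ENNReal.ofReal_mul hd]
  congr 1; ring

lemma Ex_kidsPairs (hd : 0 ≤ d) (h0 : 0 ≤ l) (h1 : l ≤ 1) (n : ℕ) :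
    Ex d (n + 1) (fun t => ENNReal.ofReal (kidsPairs (sig l n) t))
      = ENNReal.ofReal ((d * l ^ 2 * mGW l d n) ^ 2) := by
  simp only [ofReal_kidsPairs (sig_nonneg h0 h1 n)]
  rw [Ex_succ hd]
  simp only [lev_kPairs _ _ (tsum_wgt hd n), Ex_sig hd h0 h1, ← mul_assoc]
  rw [ENNReal.tsum_mul_right, tsum_pw_pairs hd,
    ← ENNReal.ofReal_pow (mul_nonneg (sq_nonneg l) (mGW_nonneg hd h0 h1 n)),
    ← ENNReal.ofReal_pow hd, ← ENNReal.ofReal_mul (sq_nonneg d)]
  congr 1; ring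

lemma Ex_add (n : ℕ) (F G : Tree → ℝ≥0∞) :
    Ex d n (fun t => F t + G t) = Ex d n F + Ex d n G := by
  simp only [Ex, mul_add, ENNReal.tsum_add]

lemma Ex_mul (n : ℕ) (a : ℝ≥0∞) (F : Tree → ℝ≥0∞) :
    Ex d n (fun t => a * F t) = a * Ex d n F := by
  simp only [Ex, ← ENNReal.tsum_mul_left, mul_left_comm]

lemma Ex_mono (n : ℕ) {F G : Tree → ℝ≥0∞} (h : ∀ t, F t ≤ G t) : Ex d n F ≤ Ex d n G :=
  ENNReal.tsum_le_tsum fun t => mul_le_mul_right (h t) _

lemma mGW_le (hd : 0 ≤ d) (h0 : 0 ≤ l) (h1 : l ≤ 1) (n : ℕ) :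
    mGW l d (n + 1) ≤ d * l ^ 2 * mGW l d n := by
  have h := Ex_mono (d := d) (n + 1) (F := fun t => ENNReal.ofReal (tX l t (n + 1)))
    (G := fun t => ENNReal.ofReal (kidsSum (sig l n) t))
    (fun t => ENNReal.ofReal_le_ofReal (tX_succ_le h0 h1 n t))
  rw [Ex_X hd h0 h1, Ex_kidsSum hd h0 h1] at h
  exact (ENNReal.ofReal_le_ofReal_iff
    (mul_nonneg (mul_nonneg hd (sq_nonneg l)) (mGW_nonneg hd h0 h1 n))).1 h

lemma mGW_step (hd : 0 ≤ d) (h0 : 0 ≤ l) (h1 : l ≤ 1) (n : ℕ) :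
    d * l ^ 2 * mGW l d n / (1 + d * l ^ 2 * mGW l d n) ≤ mGW l d (n + 1) := by
  set u := d * l ^ 2 * mGW l d n with hu
  have hu0 : 0 ≤ u := mul_nonneg (mul_nonneg hd (sq_nonneg l)) (mGW_nonneg hd h0 h1 n)
  set c := 1 / (1 + u) with hc
  have hc0 : 0 ≤ c := by positivity
  have h := Ex_mono (d := d) (n + 1)
    (F := fun t => ENNReal.ofReal (2 * c) * ENNReal.ofReal (kidsSum (sig l n) t))
    (G := fun t => ENNReal.ofReal (tX l t (n + 1)) + ENNReal.ofReal (c ^ 2) *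
      (ENNReal.ofReal (kidsSum (sig l n) t) + ENNReal.ofReal (kidsPairs (sig l n) t))) (fun t => by
    have hA := kidsSum_nonneg (sig_nonneg h0 h1 n) t
    have hP := kidsPairs_nonneg (sig_nonneg h0 h1 n) t
    rw [← ENNReal.ofReal_add hA hP, ← ENNReal.ofReal_mul (sq_nonneg c),
      ← ENNReal.ofReal_add (tX_mem h0 h1 t (n + 1)).1 (mul_nonneg (sq_nonneg c) (add_nonneg hA hP)),
      ← ENNReal.ofReal_mul (by positivity)]
    exact ENNReal.ofReal_le_ofReal (tX_succ_ge h0 h1 n t))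
  rw [Ex_mul, Ex_add, Ex_mul, Ex_add, Ex_X hd h0 h1, Ex_kidsSum hd h0 h1, Ex_kidsPairs hd h0 h1,
    ← hu, ← ENNReal.ofReal_add hu0 (sq_nonneg u), ← ENNReal.ofReal_mul (sq_nonneg c),
    ← ENNReal.ofReal_add (mGW_nonneg hd h0 h1 _) (mul_nonneg (sq_nonneg c) (by positivity)),
    ← ENNReal.ofReal_mul (by positivity),
    ENNReal.ofReal_le_ofReal_iff (add_nonneg (mGW_nonneg hd h0 h1 _) (by positivity))] at h
  have e : 2 * c * u - c ^ 2 * (u + u ^ 2) = u / (1 + u) := by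
    rw [hc]
    have : (1 + u) ≠ 0 := by linarith
    field_simp; ring
  linarith

lemma sq_mean_le (hd : 0 ≤ d) (h0 : 0 ≤ l) (h1 : l ≤ 1) (n : ℕ) :
    mGW l d n ^ 2 ≤ ∑' t, gwProb d n t * tX l t n ^ 2 := by
  set m := mGW l d n with hm
  have hs := summable_X hd h0 h1 n n
  have hs2 : Summable (fun t => gwProb d n t * tX l t n ^ 2) :=
    summable_bdd hd n (fun t => sq_nonneg _)
      (fun t => pow_le_one₀ (tX_mem h0 h1 t n).1 (tX_mem h0 h1 t n).2)
  have h : (∑' t, (2 * m * (gwProb d n t * tX l t n) - m ^ 2 * gwProb d n t))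
      ≤ ∑' t, gwProb d n t * tX l t n ^ 2 :=
    Summable.tsum_le_tsum (fun t => by
      nlinarith [mul_nonneg (gwProb_nonneg hd n t) (sq_nonneg (tX l t n - m))])
      ((hs.mul_left _).sub ((summable_gw hd n).mul_left _)) hs2
  rw [Summable.tsum_sub (hs.mul_left _) ((summable_gw hd n).mul_left _), tsum_mul_left,
    tsum_mul_left, gw_total hd] at h
  rw [show ∑' t, gwProb d n t * tX l t n = m from hm.symm] at h
  nlinarith

/-- A root with two children, the first of which has two children. -/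
def embed (q : Tree × Tree × Tree) : Tree :=
  .cons (.cons q.1 (.cons q.2.1 .nil)) (.cons q.2.2 .nil)

lemma mGW_gain (hd : 0 ≤ d) (h0 : 0 ≤ l) (h1 : l ≤ 1) (n : ℕ) :
    mGW l d (n + 2) + (Real.exp (-d) * d ^ 2 / 2) ^ 2 * (l ^ 13 / 16) *
        (mGW l d n ^ 4 * mGW l d (n + 1)) ≤ d * l ^ 2 * mGW l d (n + 1) := by
  set p := Real.exp (-d) * d ^ 2 / 2 with hp
  set K := l ^ 13 / 16 with hK
  set s2 := ∑' t, gwProb d n t * tX l t n ^ 2 with hs2
  have hK0 : 0 ≤ K := by positivity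
  have hp0 : 0 ≤ p := by positivity
  have hm := mGW_nonneg (l := l) hd h0 h1
  have hp2 : pw d 2 = ENNReal.ofReal p := by simp [pw, hp, Nat.factorial]
  have hinj : Function.Injective embed := by
    rintro ⟨a, b, c⟩ ⟨a', b', c'⟩ h
    simp only [embed, Tree.cons.injEq] at h
    obtain ⟨⟨h1, h2, -⟩, h3, -⟩ := h
    simp [h1, h2, h3]
  have hs2' : Summable (fun t => gwProb d n t * tX l t n ^ 2) :=
    summable_bdd hd n (fun t => sq_nonneg _)
      (fun t => pow_le_one₀ (tX_mem h0 h1 t n).1 (tX_mem h0 h1 t n).2)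
  have hlow : ENNReal.ofReal (p ^ 2 * K * (s2 * s2 * mGW l d (n + 1)))
      ≤ Ex d (n + 2) (fun t => ENNReal.ofReal (gain l n t)) := by
    refine le_trans (le_of_eq ?_) (ENNReal.tsum_comp_le_tsum_of_injective hinj _)
    have e : ∀ a e b : Tree, wgt d (n + 2) (embed (a, e, b)) * ENNReal.ofReal (gain l n (embed (a, e, b)))
        = (ENNReal.ofReal p * ENNReal.ofReal p * ENNReal.ofReal K) *
          ((wgt d n a * ENNReal.ofReal (tX l a n ^ 2)) *
          ((wgt d n e * ENNReal.ofReal (tX l e n ^ 2)) *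
          (wgt d (n + 1) b * ENNReal.ofReal (tX l b (n + 1))))) := by
      intro a e b
      rw [embed, wgt_succ hd (n + 1)]
      simp only [numKids, zero_add, one_add_one_eq_two, kp, mul_one]
      rw [wgt_succ hd n (Tree.cons a (Tree.cons e Tree.nil))]
      simp only [numKids, zero_add, one_add_one_eq_two, kp, mul_one, hp2, gain, ← hK]
      rw [ENNReal.ofReal_mul hK0, ENNReal.ofReal_mul (by positivity),
        ENNReal.ofReal_mul (sq_nonneg _)]
      ring
    simp only [Function.comp_def]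
    rw [ENNReal.tsum_prod', show p ^ 2 * K * (s2 * s2 * mGW l d (n + 1))
      = (p * p * K) * (s2 * (s2 * mGW l d (n + 1))) by ring]
    have hS : ∑' t, wgt d n t * ENNReal.ofReal (tX l t n ^ 2) = ENNReal.ofReal s2 :=
      Ex_ofReal hd n (fun t => sq_nonneg _) hs2'
    have hX : ∑' t, wgt d (n + 1) t * ENNReal.ofReal (tX l t (n + 1))
        = ENNReal.ofReal (mGW l d (n + 1)) := Ex_X hd h0 h1 (n + 1)
    have s20 : 0 ≤ s2 := tsum_nonneg fun t => mul_nonneg (gwProb_nonneg hd n t) (sq_nonneg _)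
    simp only [ENNReal.tsum_prod', e, ENNReal.tsum_mul_left, ENNReal.tsum_mul_right, hS, hX]
    rw [ENNReal.ofReal_mul (by positivity), ENNReal.ofReal_mul s20, ENNReal.ofReal_mul s20,
      ENNReal.ofReal_mul (by positivity), ENNReal.ofReal_mul hp0]
  have h := Ex_mono (d := d) (n + 2)
    (F := fun t => ENNReal.ofReal (tX l t (n + 2)) + ENNReal.ofReal (gain l n t))
    (G := fun t => ENNReal.ofReal (kidsSum (sig l (n + 1)) t)) (fun t => by
      rw [← ENNReal.ofReal_add (tX_mem h0 h1 t _).1 (gain_nonneg h0 h1 n t)]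
      exact ENNReal.ofReal_le_ofReal (tX_gain h0 h1 n t))
  rw [Ex_add, Ex_X hd h0 h1, Ex_kidsSum hd h0 h1] at h
  have h' := le_trans (add_le_add le_rfl hlow) h
  have s20 : 0 ≤ s2 := tsum_nonneg fun t => mul_nonneg (gwProb_nonneg hd n t) (sq_nonneg _)
  have := hm (n + 1)
  rw [← ENNReal.ofReal_add (hm _) (by positivity), ENNReal.ofReal_le_ofReal_iff (by positivity)] at h'
  have hsq := sq_mean_le hd h0 h1 n
  rw [← hs2] at hsq
  have h4 : mGW l d n ^ 4 ≤ s2 * s2 := by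
    have := mul_le_mul hsq hsq (sq_nonneg _) s20
    nlinarith
  have : p ^ 2 * K * (mGW l d n ^ 4 * mGW l d (n + 1))
      ≤ p ^ 2 * K * (s2 * s2 * mGW l d (n + 1)) :=
    mul_le_mul_of_nonneg_left (mul_le_mul_of_nonneg_right h4 (hm _)) (by positivity)
  linarith

lemma aTree_le_two (h0 : 0 ≤ l) (h1 : l ≤ 1) (t : Tree) (n : ℕ) : aTree l t n ≤ 2 := by
  have := aTree_le h0 h1 t n (η := 1) one_pos
  have := (tX_mem h0 h1 t n).2
  linarith

theorem gw_nonreconstruction (hd : 0 < d) (h0 : 0 ≤ l) (h1 : l ≤ 1) (hq : d * l ^ 2 ≤ 1) :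
    Tendsto (aGW l d) atTop (𝓝 0) := by
  have hd' := hd.le
  refine tv_to_zero (m := mGW l d) ?_
    (fun n => tsum_nonneg fun t => mul_nonneg (gwProb_nonneg hd' n t) (aTree_nonneg h0 h1 t n))
    (fun n η hη => ?_)
  · rcases h0.eq_or_lt with hz | hl
    · have hzero : ∀ n, mGW l d (n + 1) = 0 := fun n =>
        le_antisymm ((mGW_le hd' h0 h1 n).trans (by simp [← hz])) (mGW_nonneg hd' h0 h1 _)
      rw [← tendsto_add_atTop_iff_nat 1]
      simp [hzero]
    · exact seq_to_zero (mGW_nonneg hd' h0 h1) hq (by positivity) (mGW_le hd' h0 h1)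
        (mGW_gain hd' h0 h1)
  · have hs := summable_bdd hd' n (fun t => aTree_nonneg h0 h1 t n) (aTree_le_two h0 h1 · n)
    have hX := summable_X hd' h0 h1 n n
    have h2 : aGW l d n ≤ ∑' t, ((3 / 2 * η) * gwProb d n t
        + (gwProb d n t * tX l t n) / (12 * η)) :=
      Summable.tsum_le_tsum (fun t => by
        refine (mul_le_mul_of_nonneg_left (aTree_le h0 h1 t n hη) (gwProb_nonneg hd' n t)).trans
          (le_of_eq ?_)
        ring) hs (((summable_gw hd' n).mul_left _).add (hX.div_const _))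
    rw [Summable.tsum_add ((summable_gw hd' n).mul_left _) (hX.div_const _), tsum_mul_left,
      gw_total hd', tsum_div_const, mul_one] at h2
    exact h2

theorem gw_reconstruction (hd : 0 < d) (h0 : 0 ≤ l) (h1 : l ≤ 1) (hq : 1 < d * l ^ 2) :
    ∃ c > 0, ∀ n, c ≤ aGW l d n := by
  have hd' := hd.le
  refine ⟨(d * l ^ 2 - 1) / (d * l ^ 2) / 3,
    div_pos (div_pos (by linarith) (by linarith)) (by norm_num), fun n => ?_⟩
  have h := seq_lower (m := mGW l d) hq ?_ (mGW_nonneg hd' h0 h1) (mGW_step hd' h0 h1) n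
  · have hs := summable_bdd hd' n (fun t => aTree_nonneg h0 h1 t n) (aTree_le_two h0 h1 · n)
    have h2 : mGW l d n ≤ ∑' t, 3 * (gwProb d n t * aTree l t n) :=
      Summable.tsum_le_tsum (fun t => by
        refine (mul_le_mul_of_nonneg_left (tX_le_aTree h0 h1 t n) (gwProb_nonneg hd' n t)).trans
          (le_of_eq ?_)
        ring) (summable_X hd' h0 h1 n n) (hs.mul_left _)
    rw [tsum_mul_left] at h2
    unfold aGW
    linarith
  · have : mGW l d 0 = 1 := by simp [mGW, tX_zero, gw_total hd']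
    rw [this, div_le_one (by linarith)]; linarith

end Vale.Agent.P154
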